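import Mathlib

namespace Vale.Agent.P266

open Polynomial

lemma der_aeval_mem {P B M : Type*} [CommRing P] [CommRing B] [Algebra ℂ B] [Algebra P B]
    [AddCommGroup M] [Module B M] [Module ℂ M] (D : Derivation ℂ B M) (a : B) (N : AddSubgroup M)
    (hP : ∀ (c : P) (i : ℕ), a ^ i • D (algebraMap P B c) ∈ N) (p : P[X]) :
    D (aeval a p) - aeval a (derivative p) • D a ∈ N := by
  induction p using Polynomial.induction_on' with
  | add p q hp hq =>
    simp only [map_add, add_smul]
    convert N.add_mem hp hq using 1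
    abel
  | monomial n c =>
    simp only [aeval_monomial, derivative_monomial, Derivation.leibniz, Derivation.leibniz_pow,
      map_mul, map_natCast]
    rw [← Nat.cast_smul_eq_nsmul B, smul_smul, smul_smul, add_sub_cancel_left]
    exact hP c n

/-- In residue characteristic zero, every element of an integral extension is a simple root
modulo a prime of some polynomial over the base. -/
lemma exists_poly {P B : Type*} [CommRing P] [CommRing B] [Algebra P B] [Algebra.IsIntegral P B]
    (p : Ideal B) [p.IsPrime] [CharZero (B ⧸ p)] (a : B) :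
    ∃ f : P[X], aeval a f ∈ p ∧ aeval a (derivative f) ∉ p := by
  classical
  let ψ := (Ideal.Quotient.mk p).comp (algebraMap P B)
  have hev : ∀ q : P[X], Ideal.Quotient.mk p (aeval a q) =
      (q.map ψ).eval (Ideal.Quotient.mk p a) := fun q ↦ by
    rw [aeval_def, eval_map, hom_eval₂]
  have hex : ∃ n, ∃ q : P[X], (q.map ψ).natDegree = n ∧ q.map ψ ≠ 0 ∧ aeval a q ∈ p := by
    obtain ⟨q, hq, ha⟩ := Algebra.IsIntegral.isIntegral (R := P) a
    exact ⟨_, q, rfl, (hq.map ψ).ne_zero, by rw [aeval_def, ha]; exact p.zero_mem⟩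
  obtain ⟨q, hn, hq, hqa⟩ := Nat.find_spec hex
  have h0 : (q.map ψ).natDegree ≠ 0 := by
    intro h
    have := hev q
    rw [Ideal.Quotient.eq_zero_iff_mem.mpr hqa, eq_C_of_natDegree_eq_zero h, eval_C] at this
    exact hq (by rw [eq_C_of_natDegree_eq_zero h, ← this, C_0])
  refine ⟨q, hqa, fun h ↦ ?_⟩
  have hne : (derivative q).map ψ ≠ 0 := by
    rw [← derivative_map]
    exact fun h' ↦ h0 (derivative_eq_zero.mp h')
  have := Nat.find_min' hex ⟨derivative q, rfl, hne, h⟩
  have hlt : ((derivative q).map ψ).natDegree < (q.map ψ).natDegree := by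
    rw [← derivative_map]
    exact natDegree_derivative_lt h0
  omega

section Seidenberg

open PowerSeries

variable {K : Type*} [Field K] [CharZero K] [Algebra ℂ K] (D : Derivation ℂ K K)

/-- The formal flow of a derivation. -/
noncomputable def flow (x : K) : K⟦X⟧ :=
  PowerSeries.mk fun n ↦ (n.factorial : K)⁻¹ * D^[n] x

omit [CharZero K] in
lemma coeff_flow_zero (x : K) : PowerSeries.coeff 0 (flow D x) = x := by
  simp [flow]

omit [CharZero K] in
lemma coeff_flow_one (x : K) : PowerSeries.coeff 1 (flow D x) = D x := by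
  simp [flow]

lemma coeff_flow_succ (x : K) (n : ℕ) :
    PowerSeries.coeff (n + 1) (flow D x) * (n + 1 : K) = D (PowerSeries.coeff n (flow D x)) := by
  simp only [flow, coeff_mk, Function.iterate_succ_apply', Derivation.leibniz, smul_eq_mul]
  have h1 : D ((n.factorial : K)⁻¹) = 0 := by
    rw [Derivation.leibniz_inv, Derivation.map_natCast, smul_zero]
  rw [h1, Nat.factorial_succ]
  push_cast
  have : (n : K) + 1 ≠ 0 := Nat.cast_add_one_ne_zero n
  field_simp
  ring

lemma flow_mul (x y : K) : flow D (x * y) = flow D x * flow D y := by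
  ext n
  induction n with
  | zero =>
    rw [PowerSeries.coeff_mul]
    simp [coeff_flow_zero]
  | succ n ih =>
    apply mul_right_cancel₀ (Nat.cast_add_one_ne_zero n : (n : K) + 1 ≠ 0)
    rw [coeff_flow_succ, ih]
    have h := congrArg (PowerSeries.coeff n) ((d⁄dX K).leibniz (flow D x) (flow D y))
    rw [PowerSeries.coeff_derivative] at h
    rw [h, PowerSeries.coeff_mul, map_sum, smul_eq_mul, smul_eq_mul, mul_comm (flow D y), map_add,
      PowerSeries.coeff_mul, PowerSeries.coeff_mul, ← Finset.sum_add_distrib]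
    refine Finset.sum_congr rfl fun p _ ↦ ?_
    rw [Derivation.leibniz, PowerSeries.coeff_derivative, PowerSeries.coeff_derivative, coeff_flow_succ, coeff_flow_succ,
      smul_eq_mul, smul_eq_mul]
    ring

lemma flow_pow_succ (x : K) (n : ℕ) : flow D (x ^ (n + 1)) = flow D x ^ (n + 1) := by
  induction n with
  | zero => simp
  | succ n ih => rw [pow_succ, flow_mul, ih, ← pow_succ]

omit [CharZero K] in
lemma flow_one : flow D (1 : K) = 1 := by
  ext n
  cases n with
  | zero => simp [coeff_flow_zero]
  | succ n =>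
    have h : ∀ m, D^[m + 1] (1 : K) = 0 := by
      intro m
      induction m with
      | zero => simp
      | succ m ih => rw [Function.iterate_succ_apply', ih, map_zero]
    simp [flow, h n]

lemma flow_pow (x : K) (n : ℕ) : flow D (x ^ n) = flow D x ^ n := by
  cases n with
  | zero => simp [flow_one]
  | succ n => exact flow_pow_succ D x n

/-- Seidenberg: a derivation preserving an algebra preserves almost integrality. -/
lemma almost_integral_der (A : Subalgebra ℂ K) (hA : ∀ a ∈ A, D a ∈ A) {c x : K}
    (hcx : ∀ n : ℕ, c * x ^ n ∈ A) (n : ℕ) : c ^ 2 * D x ^ n ∈ A := by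
  have hit : ∀ a ∈ A, ∀ m, D^[m] a ∈ A := by
    intro a ha m
    induction m with
    | zero => exact ha
    | succ m ih => rw [Function.iterate_succ_apply']; exact hA _ ih
  have hcast : ∀ m : ℕ, ((m.factorial : K))⁻¹ ∈ A := by
    intro m
    have := A.algebraMap_mem ((m.factorial : ℂ)⁻¹)
    rwa [map_inv₀, map_natCast] at this
  have hflow : ∀ a ∈ A, ∀ m, PowerSeries.coeff m (flow D a) ∈ A := by
    intro a ha m
    simp only [flow, coeff_mk]
    exact A.mul_mem (hcast m) (hit a ha m)
  let W : K⟦X⟧ := PowerSeries.C c * flow D c * (flow D x - PowerSeries.C x) ^ n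
  have h1 : PowerSeries.coeff n W ∈ A := by
    simp only [W]
    rw [sub_eq_add_neg, add_pow, Finset.mul_sum, map_sum]
    refine A.sum_mem fun k _ ↦ ?_
    have : PowerSeries.C c * flow D c *
        (flow D x ^ k * (-PowerSeries.C x) ^ (n - k) * (n.choose k : K⟦X⟧)) =
        PowerSeries.C ((-1 : K) ^ (n - k) * (n.choose k : K) * (c * x ^ (n - k))) *
          flow D (c * x ^ k) := by
      rw [flow_mul, flow_pow, neg_pow (PowerSeries.C x)]
      simp only [map_mul, map_pow, map_natCast, map_neg, map_one]
      ring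
    rw [this, PowerSeries.coeff_C_mul]
    refine A.mul_mem (A.mul_mem (A.mul_mem ?_ ?_) (hcx _)) (hflow _ (hcx k) _)
    · exact A.pow_mem (A.neg_mem A.one_mem) _
    · exact A.natCast_mem _
  obtain ⟨z, hz⟩ : PowerSeries.X ∣ flow D x - PowerSeries.C x := by
    rw [PowerSeries.X_dvd_iff, map_sub, constantCoeff_C,
      ← PowerSeries.coeff_zero_eq_constantCoeff_apply, coeff_flow_zero, sub_self]
  have hz0 : PowerSeries.constantCoeff z = D x := by
    have := congrArg (PowerSeries.coeff 1) hz
    rw [map_sub, coeff_flow_one, PowerSeries.coeff_C, if_neg one_ne_zero, sub_zero,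
      show (1 : ℕ) = 0 + 1 from rfl, PowerSeries.coeff_succ_X_mul,
      PowerSeries.coeff_zero_eq_constantCoeff_apply] at this
    exact this.symm
  have h2 : PowerSeries.coeff n W = c ^ 2 * D x ^ n := by
    simp only [W, hz, mul_pow]
    rw [show PowerSeries.C c * flow D c * (PowerSeries.X ^ n * z ^ n) =
      PowerSeries.X ^ n * (PowerSeries.C c * flow D c * z ^ n) by ring,
      PowerSeries.coeff_X_pow_mul', if_pos le_rfl, Nat.sub_self,
      PowerSeries.coeff_zero_eq_constantCoeff_apply, map_mul, map_mul, map_pow, constantCoeff_C,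
      ← PowerSeries.coeff_zero_eq_constantCoeff_apply, coeff_flow_zero, hz0]
    ring
  exact h2 ▸ h1

end Seidenberg

end Vale.Agent.P266
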