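import Mathlib

namespace Vale.Agent.P266

open MvPolynomial

variable {A : Type*} [CommRing A] [Algebra ℂ A] [Algebra.FiniteType ℂ A]

/-- Zariski's lemma: every residue field is the field of complex numbers. -/
lemma exists_scalar (m : Ideal A) [m.IsMaximal] (a : A) :
    ∃ c : ℂ, a - algebraMap ℂ A c ∈ m := by
  let := Ideal.Quotient.field m
  have : Algebra.FiniteType ℂ (A ⧸ m) := inferInstance
  have : Module.Finite ℂ (A ⧸ m) := finite_of_finite_type_of_isJacobsonRing ℂ (A ⧸ m)
  obtain ⟨c, hc⟩ := (IsAlgClosed.algebraMap_bijective_of_isIntegral (k := ℂ) (K := A ⧸ m)).2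
    (Ideal.Quotient.mk m a)
  refine ⟨c, Ideal.Quotient.eq.mp ?_⟩
  rw [← hc]
  rfl

/-- Noether normalisation centred at a given maximal ideal. -/
lemma exists_normalization [IsDomain A] (m : Ideal A) [m.IsMaximal] :
    ∃ (s : ℕ) (y : Fin s → A), (∀ l, y l ∈ m) ∧ Function.Injective (aeval (R := ℂ) y) ∧
      (aeval (R := ℂ) y).Finite := by
  obtain ⟨s, φ, hinj, hfin⟩ := exists_finite_inj_algHom_of_fg ℂ A
  choose c hc using fun l ↦ exists_scalar m (φ (X l))
  let e : MvPolynomial (Fin s) ℂ ≃ₐ[ℂ] MvPolynomial (Fin s) ℂ :=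
    AlgEquiv.ofAlgHom (aeval fun l ↦ X l - C (c l)) (aeval fun l ↦ X l + C (c l))
      (algHom_ext fun l ↦ by simp) (algHom_ext fun l ↦ by simp)
  have he : aeval (R := ℂ) (fun l ↦ φ (X l) - algebraMap ℂ A (c l)) = φ.comp e.toAlgHom :=
    algHom_ext fun l ↦ by
      have h1 : φ (C (c l)) = algebraMap ℂ A (c l) := φ.commutes (c l)
      simp [e, h1]
  refine ⟨s, fun l ↦ φ (X l) - algebraMap ℂ A (c l), hc, ?_, ?_⟩
  · rw [he]
    exact hinj.comp e.injective
  · rw [he]
    exact hfin.comp (RingHom.Finite.of_surjective _ e.surjective)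

lemma ringKrullDim_le_of_isIntegral {R S : Type*} [CommRing R] [CommRing S] [Algebra R S]
    [Algebra.IsIntegral R S] : ringKrullDim S ≤ ringKrullDim R :=
  Order.krullDim_le_of_strictMono (fun Q ↦ PrimeSpectrum.comap (algebraMap R S) Q) <| by
    intro Q Q' hlt
    obtain ⟨x, hx, hx'⟩ := Set.exists_of_ssubset hlt
    exact PrimeSpectrum.asIdeal_lt_asIdeal _ _ |>.mp
      (Ideal.comap_lt_comap_of_integral_mem_sdiff hlt.le ⟨hx, hx'⟩
        (Algebra.IsIntegral.isIntegral x))

lemma le_height_origin (s : ℕ) :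
    (s : ℕ∞) ≤ (RingHom.ker (eval (fun _ : Fin s ↦ (0 : ℂ)))).height := by
  let I : Fin (s + 1) → Ideal (MvPolynomial (Fin s) ℂ) := fun k ↦ RingHom.ker
    (aeval (R := ℂ) (fun i : Fin s ↦ if (i : ℕ) < k then (0 : MvPolynomial (Fin s) ℂ) else X i))
  have hprime : ∀ k, (I k).IsPrime := fun k ↦ RingHom.ker_isPrime _
  have hfix : ∀ k p, p ∈ I k → ∀ k', k ≤ k' → p ∈ I k' := by
    intro k p hp k' hk
    simp only [I, RingHom.mem_ker] at hp ⊢
    have hcomp : (aeval (R := ℂ) fun i : Fin s ↦ if (i : ℕ) < k' then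
        (0 : MvPolynomial (Fin s) ℂ) else X i).comp
        (aeval (R := ℂ) fun i : Fin s ↦ if (i : ℕ) < k then
          (0 : MvPolynomial (Fin s) ℂ) else X i) =
        aeval (R := ℂ) fun i : Fin s ↦ if (i : ℕ) < k' then
          (0 : MvPolynomial (Fin s) ℂ) else X i := by
      refine algHom_ext fun i ↦ ?_
      by_cases hi : (i : ℕ) < k
      · have hi' : (i : ℕ) < k' := lt_of_lt_of_le hi hk
        simp [hi, hi']
      · simp [hi]
    rw [← hcomp, AlgHom.comp_apply, hp, map_zero]
  let l : LTSeries (PrimeSpectrum (MvPolynomial (Fin s) ℂ)) :=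
    { length := s
      toFun := fun k ↦ ⟨I k, hprime k⟩
      step := fun i ↦ by
        change I i.castSucc < I i.succ
        refine lt_of_le_of_ne (fun p hp ↦ hfix _ p hp _ (Fin.castSucc_lt_succ (i := i)).le) fun h ↦ ?_
        have h1 : X i ∈ I i.succ := by simp [I]
        rw [← h] at h1
        simp [I, X_ne_zero] at h1 }
  have hlast : I (Fin.last s) ≤ RingHom.ker (eval (fun _ : Fin s ↦ (0 : ℂ))) := by
    intro p hp
    simp only [I, RingHom.mem_ker] at hp ⊢
    have hcomp : (aeval (R := ℂ) fun _ : Fin s ↦ (0 : ℂ)).comp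
        (aeval (R := ℂ) fun i : Fin s ↦ if (i : ℕ) < Fin.last s then
          (0 : MvPolynomial (Fin s) ℂ) else X i) = aeval (R := ℂ) fun _ : Fin s ↦ (0 : ℂ) :=
      algHom_ext fun i ↦ by simp
    have := congrArg (fun f ↦ f p) hcomp
    simp only [AlgHom.comp_apply, hp, map_zero] at this
    exact this.symm.trans rfl |>.trans rfl
  have := RingHom.ker_isPrime (eval (fun _ : Fin s ↦ (0 : ℂ)))
  refine le_trans ?_ (Ideal.height_mono (I := I (Fin.last s)) hlast)
  have := hprime (Fin.last s)
  rw [(⟨_, this⟩ : PrimeSpectrum (MvPolynomial (Fin s) ℂ)).height_eq_orderHeight]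
  exact Order.length_le_height (p := l) le_rfl

lemma ringKrullDim_atPrime_of_normalization [IsDomain A] (m : Ideal A) [m.IsMaximal] {s : ℕ}
    (y : Fin s → A) (hy : ∀ l, y l ∈ m) (hinj : Function.Injective (aeval (R := ℂ) y))
    (hfin : (aeval (R := ℂ) y).Finite) :
    ringKrullDim (Localization.AtPrime m) = s ∧ ringKrullDim A = s := by
  let : Algebra (MvPolynomial (Fin s) ℂ) A := (aeval (R := ℂ) y).toRingHom.toAlgebra
  have : Module.Finite (MvPolynomial (Fin s) ℂ) A := hfin
  have : FaithfulSMul (MvPolynomial (Fin s) ℂ) A :=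
    (faithfulSMul_iff_algebraMap_injective _ _).mpr hinj
  have : IsNoetherianRing A := Algebra.FiniteType.isNoetherianRing ℂ A
  have hdim : ringKrullDim A ≤ (s : WithBot ℕ∞) := by
    refine (ringKrullDim_le_of_isIntegral (R := MvPolynomial (Fin s) ℂ)).trans
      (le_of_eq (α := WithBot ℕ∞) ?_)
    simp
  have hmI : m.comap (algebraMap (MvPolynomial (Fin s) ℂ) A) =
      RingHom.ker (eval (fun _ : Fin s ↦ (0 : ℂ))) := by
    have hmax : (RingHom.ker (eval (fun _ : Fin s ↦ (0 : ℂ)))).IsMaximal :=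
      RingHom.ker_isMaximal_of_surjective _ fun c ↦ ⟨C c, by simp⟩
    refine (hmax.eq_of_le (Ideal.comap_ne_top _ ‹m.IsMaximal›.ne_top) fun p hp ↦ ?_).symm
    change aeval y p ∈ m
    have hsplit : p - C (eval (fun _ : Fin s ↦ (0 : ℂ)) p) ∈ Ideal.span (Set.range (X (R := ℂ))) := by
      rw [← Set.image_univ, mem_ideal_span_X_image]
      intro e he
      by_contra! hall
      have he0 : e = 0 := Finsupp.ext fun l ↦ hall l (Set.mem_univ l)
      apply mem_support_iff.mp he
      simp [he0, MvPolynomial.eval_zero', constantCoeff_eq]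
    have hp' : eval (fun _ : Fin s ↦ (0 : ℂ)) p = 0 := hp
    rw [hp', map_zero, sub_zero] at hsplit
    have hle : Ideal.span (Set.range (X (R := ℂ))) ≤ m.comap (aeval (R := ℂ) y) := by
      rw [Ideal.span_le]
      rintro _ ⟨l, rfl⟩
      simpa using hy l
    exact hle hsplit
  have := RingHom.ker_isPrime (eval (fun _ : Fin s ↦ (0 : ℂ)))
  have : m.LiesOver (RingHom.ker (eval (fun _ : Fin s ↦ (0 : ℂ)))) := ⟨hmI.symm⟩
  have hht : (s : ℕ∞) ≤ m.height := by
    rw [Ideal.height_eq_height_add_of_liesOver_of_hasGoingDown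
      (RingHom.ker (eval (fun _ : Fin s ↦ (0 : ℂ)))) m]
    exact (le_height_origin s).trans le_self_add
  have h1 : (s : WithBot ℕ∞) ≤ ringKrullDim (Localization.AtPrime m) := by
    rw [IsLocalization.AtPrime.ringKrullDim_eq_height m]
    exact WithBot.coe_le_coe.mpr hht
  have h2 : ringKrullDim (Localization.AtPrime m) ≤ ringKrullDim A := by
    rw [IsLocalization.AtPrime.ringKrullDim_eq_height m]
    exact Ideal.height_le_ringKrullDim_of_ne_top ‹m.IsMaximal›.ne_top
  exact ⟨le_antisymm (h2.trans hdim) h1, le_antisymm hdim (h1.trans h2)⟩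

lemma isIntegral_of_reduction {P : Type*} [CommRing P] [Algebra P A] {s : ℕ} (y : Fin s → A)
    (M : Fin s → ℕ) (Q : Fin s → MvPolynomial (Fin s) P)
    (hdeg : ∀ l, (Q l).totalDegree < M l) (hQ : ∀ l, aeval y (Q l) = y l ^ M l) (l : Fin s) :
    IsIntegral P (y l) := by
  classical
  let mon : (Fin s →₀ ℕ) → A := fun e ↦ e.prod fun i n ↦ y i ^ n
  let small : Set (Fin s →₀ ℕ) := {e | ∀ i, e i < M i}
  let T : Submodule P A := Submodule.span P (mon '' small)
  have hsmall : small.Finite := by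
    refine (Set.finite_Iic (Finsupp.equivFunOnFinite.symm M)).subset fun e he i ↦ ?_
    simpa using (he i).le
  have hmon : ∀ e, mon e ∈ T := by
    intro e
    induction hn : (e.sum fun _ n ↦ n) using Nat.strong_induction_on generalizing e with
    | _ n ih =>
      subst hn
      by_cases he : e ∈ small
      · exact Submodule.subset_span ⟨e, he, rfl⟩
      obtain ⟨i, hi⟩ : ∃ i, M i ≤ e i := by simpa [small] using he
      obtain ⟨e', rfl⟩ : ∃ e', e = e' + Finsupp.single i (M i) :=
        ⟨e - Finsupp.single i (M i), (tsub_add_cancel_of_le (Finsupp.single_le_iff.mpr hi)).symm⟩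
      have h1 : mon (e' + Finsupp.single i (M i)) = mon e' * aeval y (Q i) := by
        simp only [mon]
        rw [Finsupp.prod_add_index' (by simp) (fun a b₁ b₂ ↦ pow_add _ _ _),
          Finsupp.prod_single_index (by simp), hQ]
      rw [h1, MvPolynomial.aeval_def, eval₂_eq, Finset.mul_sum]
      refine T.sum_mem fun f hf ↦ ?_
      have h2 : mon e' * (algebraMap P A ((Q i).coeff f) * ∏ j ∈ f.support, y j ^ f j) =
          (Q i).coeff f • mon (e' + f) := by
        simp only [mon]
        rw [Finsupp.prod_add_index' (by simp) (fun a b₁ b₂ ↦ pow_add _ _ _), Algebra.smul_def]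
        simp only [Finsupp.prod]
        ring
      rw [h2]
      refine T.smul_mem _ (ih _ ?_ _ rfl)
      have hf' := (le_totalDegree hf).trans_lt (hdeg i)
      rw [Finsupp.sum_add_index' (fun _ ↦ rfl) (fun _ _ _ ↦ rfl),
        Finsupp.sum_add_index' (fun _ ↦ rfl) (fun _ _ _ ↦ rfl), Finsupp.sum_single_index rfl]
      omega
  have hle : Subalgebra.toSubmodule (Algebra.adjoin P (Set.range y)) ≤ T := by
    intro x hx
    rw [Subalgebra.mem_toSubmodule, Algebra.adjoin_range_eq_range_aeval] at hx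
    obtain ⟨p, rfl⟩ := hx
    rw [AlgHom.toRingHom_eq_coe, RingHom.coe_coe, MvPolynomial.aeval_def, eval₂_eq]
    refine T.sum_mem fun f _ ↦ ?_
    rw [← Algebra.smul_def]
    exact T.smul_mem _ (hmon f)
  have heq : Subalgebra.toSubmodule (Algebra.adjoin P (Set.range y)) = T := by
    refine le_antisymm hle (Submodule.span_le.mpr ?_)
    rintro _ ⟨e, -, rfl⟩
    rw [SetLike.mem_coe, Subalgebra.mem_toSubmodule]
    exact Subalgebra.prod_mem _ fun i _ ↦
      Subalgebra.pow_mem _ (Algebra.subset_adjoin (Set.mem_range_self i)) _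
  refine IsIntegral.of_mem_of_fg (Algebra.adjoin P (Set.range y)) ?_ _
    (Algebra.subset_adjoin (Set.mem_range_self l))
  rw [heq]
  exact Submodule.fg_span (hsmall.image _)

/-- Adding high powers of a normalisation to arbitrary elements gives a normalisation. -/
lemma exists_bound_normalization [IsDomain A] (m : Ideal A) [m.IsMaximal] {s : ℕ} (y : Fin s → A)
    (hy : ∀ l, y l ∈ m) (hinj : Function.Injective (aeval (R := ℂ) y))
    (hfin : (aeval (R := ℂ) y).Finite) (p : Fin s → A) :
    ∃ δ : ℕ, ∀ N, δ < N → Function.Injective (aeval (R := ℂ) fun l ↦ p l + y l ^ N) ∧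
      (aeval (R := ℂ) fun l ↦ p l + y l ^ N).Finite := by
  classical
  have hint : ∀ a : A, ∃ Φ : Polynomial (MvPolynomial (Fin s) ℂ), Φ.Monic ∧
      Polynomial.eval₂ (aeval (R := ℂ) y).toRingHom a Φ = 0 := fun a ↦
    (RingHom.Finite.to_isIntegral hfin) a
  choose Φ hmon hroot using hint
  refine ⟨Finset.univ.sup fun l ↦ (Finset.range (Φ (p l)).natDegree).sup fun i ↦
    ((Φ (p l)).coeff i).totalDegree, fun N hN ↦ ?_⟩
  have hN' : ∀ l i, i < (Φ (p l)).natDegree → ((Φ (p l)).coeff i).totalDegree < N := fun l i hi ↦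
    lt_of_le_of_lt (le_trans (Finset.le_sup (f := fun i ↦ ((Φ (p l)).coeff i).totalDegree)
      (Finset.mem_range.mpr hi)) (Finset.le_sup (f := fun l ↦
        (Finset.range (Φ (p l)).natDegree).sup fun i ↦ ((Φ (p l)).coeff i).totalDegree)
        (Finset.mem_univ l))) hN
  set g : Fin s → A := fun l ↦ p l + y l ^ N with hg
  let : Algebra (MvPolynomial (Fin s) ℂ) A := (aeval (R := ℂ) g).toRingHom.toAlgebra
  have : IsScalarTower ℂ (MvPolynomial (Fin s) ℂ) A :=
    IsScalarTower.of_algebraMap_eq fun c ↦ ((aeval (R := ℂ) g).commutes c).symm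
  have hyint : ∀ l, IsIntegral (MvPolynomial (Fin s) ℂ) (y l) := by
    let k : Fin s → ℕ := fun l ↦ (Φ (p l)).natDegree
    let G : Fin s → MvPolynomial (Fin s) (MvPolynomial (Fin s) ℂ) := fun l ↦ C (X l) - X l ^ N
    let lift : MvPolynomial (Fin s) ℂ →+* MvPolynomial (Fin s) (MvPolynomial (Fin s) ℂ) :=
      MvPolynomial.map (algebraMap ℂ (MvPolynomial (Fin s) ℂ))
    let E : Fin s → MvPolynomial (Fin s) (MvPolynomial (Fin s) ℂ) := fun l ↦
      (∑ i ∈ Finset.range (k l), lift ((Φ (p l)).coeff i) * G l ^ i) +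
        (G l ^ k l - (-(X l ^ N)) ^ k l)
    refine isIntegral_of_reduction y (fun l ↦ N * k l)
      (fun l ↦ C ((-1) ^ (k l + 1)) * E l) (fun l ↦ ?_) (fun l ↦ ?_)
    · have hk : 0 < k l := by
        rw [pos_iff_ne_zero]
        intro h0
        have := hroot (p l)
        rw [Polynomial.eq_one_of_monic_natDegree_zero (hmon (p l)) h0] at this
        simp at this
      have hGdeg : ∀ i, (G l ^ i).totalDegree ≤ N * i := fun i ↦ by
        refine (totalDegree_pow _ _).trans ?_
        rw [mul_comm N]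
        refine Nat.mul_le_mul le_rfl ((totalDegree_sub _ _).trans ?_)
        simp only [totalDegree_C, totalDegree_X_pow]
        omega
      refine lt_of_le_of_lt (totalDegree_mul _ _) ?_
      rw [totalDegree_C, zero_add]
      refine lt_of_le_of_lt (totalDegree_add _ _) (max_lt ?_ ?_)
      · refine lt_of_le_of_lt (totalDegree_finset_sum _ _) ((Finset.sup_lt_iff ?_).mpr fun i hi ↦ ?_)
        · exact Nat.mul_pos (by omega) hk
        refine lt_of_le_of_lt (totalDegree_mul _ _) ?_
        have h1 : (lift ((Φ (p l)).coeff i)).totalDegree ≤ ((Φ (p l)).coeff i).totalDegree :=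
          Finset.sup_mono (MvPolynomial.support_map_subset _ _)
        have h2 := hN' l i (Finset.mem_range.mp hi)
        have h3 : N * (i + 1) ≤ N * k l := Nat.mul_le_mul le_rfl (Finset.mem_range.mp hi)
        have h4 := hGdeg i
        rw [mul_add, mul_one] at h3
        omega
      · obtain ⟨k', hk'⟩ : ∃ k', k l = k' + 1 := ⟨k l - 1, by omega⟩
        rw [← geom_sum₂_mul (G l) (-(X l ^ N)) (k l)]
        refine lt_of_le_of_lt (totalDegree_mul _ _) ?_
        have h1 : (G l - -(X l ^ N)).totalDegree = 0 := by simp [G]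
        rw [h1, add_zero, hk']
        refine lt_of_le_of_lt (totalDegree_finset_sum _ _) ((Finset.sup_lt_iff ?_).mpr fun i hi ↦ ?_)
        · exact Nat.mul_pos (by omega) (by omega)
        refine lt_of_le_of_lt (totalDegree_mul _ _) ?_
        have h2 := hGdeg i
        have h3 : ((-(X l ^ N : MvPolynomial (Fin s) (MvPolynomial (Fin s) ℂ))) ^
            (k' + 1 - 1 - i)).totalDegree ≤ N * (k' - i) := by
          refine (totalDegree_pow _ _).trans ?_
          rw [totalDegree_neg, totalDegree_X_pow, mul_comm]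
          simp
        have h4 : N * i + N * (k' - i) = N * k' := by
          rw [← mul_add]
          congr 1
          have := Finset.mem_range.mp hi
          omega
        rw [mul_add, mul_one]
        omega
    · have hG : aeval y (G l) = p l := by
        simp [G, RingHom.algebraMap_toAlgebra, g]
      have hlift : ∀ q : MvPolynomial (Fin s) ℂ, aeval y (lift q) = aeval (R := ℂ) y q := fun q ↦
        MvPolynomial.aeval_map_algebraMap _ _ _
      have hr := hroot (p l)
      rw [Polynomial.eval₂_eq_sum_range, Finset.sum_range_succ, Polynomial.Monic.coeff_natDegree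
        (hmon (p l)), map_one, one_mul] at hr
      simp only [AlgHom.toRingHom_eq_coe, RingHom.coe_coe] at hr
      simp only [map_mul, map_add, map_sub, map_sum, map_pow, map_neg, map_one, hG, hlift, aeval_X, E]
      have hsum : (∑ i ∈ Finset.range (k l), aeval y ((Φ (p l)).coeff i) * p l ^ i) = -p l ^ k l :=
        eq_neg_of_add_eq_zero_left hr
      rw [hsum, neg_pow (y l ^ N), ← pow_mul]
      have h5 : ((-1 : A) ^ k l) * (-1) ^ k l = 1 := by rw [← mul_pow]; simp
      linear_combination (y l ^ (N * k l)) * h5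
  have hAint : Algebra.IsIntegral (MvPolynomial (Fin s) ℂ) A := by
    refine ⟨fun a ↦ ?_⟩
    let S := integralClosure (MvPolynomial (Fin s) ℂ) A
    have hS : ∀ q : MvPolynomial (Fin s) ℂ, aeval (R := ℂ) y q ∈ S := by
      intro q
      induction q using MvPolynomial.induction_on with
      | C c =>
        rw [aeval_C, IsScalarTower.algebraMap_apply ℂ (MvPolynomial (Fin s) ℂ) A]
        exact S.algebraMap_mem _
      | add a b ha hb => rw [map_add]; exact S.add_mem ha hb
      | mul_X a i ha => rw [map_mul, aeval_X]; exact S.mul_mem ha (hyint i)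
    refine isIntegral_trans (R := MvPolynomial (Fin s) ℂ) (A := S) a ?_
    refine ⟨(Φ a).map ((aeval (R := ℂ) y).toRingHom.codRestrict S hS), (hmon a).map _, ?_⟩
    rw [Polynomial.eval₂_map]
    exact hroot a
  have : Algebra.FiniteType (MvPolynomial (Fin s) ℂ) A :=
    Algebra.FiniteType.of_restrictScalars_finiteType ℂ _ A
  have hfin' : Module.Finite (MvPolynomial (Fin s) ℂ) A := Algebra.IsIntegral.finite
  refine ⟨?_, hfin'⟩
  rw [injective_iff_map_eq_zero]
  intro r hr
  by_contra hr0
  let : Algebra (MvPolynomial (Fin s) ℂ ⧸ Ideal.span {r}) A :=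
    (Ideal.Quotient.lift (Ideal.span {r}) (aeval (R := ℂ) g).toRingHom fun x hx ↦ by
      obtain ⟨z, rfl⟩ := Ideal.mem_span_singleton'.mp hx
      simp [hr]).toAlgebra
  have : IsScalarTower (MvPolynomial (Fin s) ℂ) (MvPolynomial (Fin s) ℂ ⧸ Ideal.span {r}) A :=
    ⟨fun q x a ↦ by
      obtain ⟨x, rfl⟩ := Ideal.Quotient.mk_surjective x
      rw [show q • Ideal.Quotient.mk (Ideal.span {r}) x = Ideal.Quotient.mk (Ideal.span {r}) (q * x)
        from rfl]
      simp only [Algebra.smul_def, RingHom.algebraMap_toAlgebra]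
      simp [mul_assoc]⟩
  have : Algebra.IsIntegral (MvPolynomial (Fin s) ℂ ⧸ Ideal.span {r}) A :=
    Algebra.IsIntegral.tower_top (MvPolynomial (Fin s) ℂ)
  have h1 := ringKrullDim_le_of_isIntegral (R := MvPolynomial (Fin s) ℂ ⧸ Ideal.span {r}) (S := A)
  have h2 : ringKrullDim (MvPolynomial (Fin s) ℂ ⧸ Ideal.span {r}) + 1 ≤
      ringKrullDim (MvPolynomial (Fin s) ℂ) :=
    ringKrullDim_quotient_succ_le_of_nonZeroDivisor (mem_nonZeroDivisors_of_ne_zero hr0)
  rw [(ringKrullDim_atPrime_of_normalization m y hy hinj hfin).2] at h1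
  rw [MvPolynomial.ringKrullDim_of_isNoetherianRing, ringKrullDim_eq_zero_of_field, zero_add,
    Nat.card_fin] at h2
  have h3 : ((s + 1 : ℕ) : WithBot ℕ∞) ≤ ((s : ℕ) : WithBot ℕ∞) := by
    rw [Nat.cast_add, Nat.cast_one]
    exact le_trans (add_le_add h1 le_rfl) h2
  have : s + 1 ≤ s := by exact_mod_cast h3
  omega

end Vale.Agent.P266
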