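import Vale.Agent.P266.Basic

namespace Vale.Agent.P266

open scoped TensorProduct

/-- The polynomial ring in `d` variables over the complex numbers. -/
abbrev Pol (d : ℕ) : Type := MvPolynomial (Fin d) ℂ

lemma der_sum_apply {ι R M : Type*} [CommRing R] [AddCommGroup M] [Algebra ℂ R] [Module R M]
    [Module ℂ M] (s : Finset ι) (F : ι → Derivation ℂ R M) (x : R) :
    (∑ i ∈ s, F i) x = ∑ i ∈ s, F i x := by
  classical
  induction s using Finset.induction_on with
  | empty => simp
  | insert i t hi ih => simp [Finset.sum_insert hi, ih]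

section PartialDerivatives

variable {d : ℕ} (K : Type*) [Field K] [Algebra ℂ K] [Algebra (Pol d) K]
  [IsScalarTower ℂ (Pol d) K] [Algebra.FormallyEtale (Pol d) K]

/-- Extension of the partial derivative to a formally étale field extension of polynomials. -/
noncomputable def pd (l : Fin d) : Derivation ℂ K K :=
  (((((Algebra.linearMap (Pol d) K).compDer
      (MvPolynomial.pderiv l : Derivation ℂ (Pol d) (Pol d))).liftKaehlerDifferential).liftBaseChange
        K).comp
    (KaehlerDifferential.tensorKaehlerEquivOfFormallyEtale ℂ (Pol d) K).symm.toLinearMap).compDer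
    (KaehlerDifferential.D ℂ K)

lemma pd_algebraMap (l : Fin d) (p : Pol d) :
    pd K l (algebraMap (Pol d) K p) = algebraMap (Pol d) K (MvPolynomial.pderiv l p) := by
  simp [pd, KaehlerDifferential.tensorKaehlerEquivOfFormallyEtale_symm_D_algebraMap,
    Derivation.liftKaehlerDifferential_comp_D]

end PartialDerivatives

section

variable {d : ℕ} {A : Type*} [CommRing A] [Algebra ℂ A] [Algebra (Pol d) A]
  [IsScalarTower ℂ (Pol d) A] {K : Type*} [Field K] [Algebra ℂ K] [Algebra (Pol d) K]
  [IsScalarTower ℂ (Pol d) K] [Algebra A K] [IsScalarTower ℂ A K] [IsScalarTower (Pol d) A K]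
  [IsFractionRing A K] [Algebra.IsIntegral (Pol d) A] [IsDomain A]

omit [IsScalarTower ℂ (Pol d) A] [Algebra.IsIntegral (Pol d) A] [IsDomain A] [IsFractionRing A K] in
lemma der_pol (δ : Derivation ℂ K K) (p : Pol d) :
    δ (algebraMap (Pol d) K p) = ∑ l, algebraMap (Pol d) K (MvPolynomial.pderiv l p) *
      δ (algebraMap (Pol d) K (MvPolynomial.X l)) := by
  classical
  induction p using MvPolynomial.induction_on with
  | C c =>
    rw [← MvPolynomial.algebraMap_eq, ← IsScalarTower.algebraMap_apply, δ.map_algebraMap]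
    simp [MvPolynomial.algebraMap_eq]
  | add p q hp hq => simp [hp, hq, add_mul, Finset.sum_add_distrib]
  | mul_X p i hp =>
    simp only [map_mul, Derivation.leibniz, hp, smul_eq_mul, map_add, add_mul, Finset.sum_add_distrib,
      Finset.mul_sum, MvPolynomial.pderiv_X]
    congr 1
    · rw [Finset.sum_eq_single i]
      · simp
      · intro b _ hb
        simp [Pi.single_eq_of_ne (Ne.symm hb)]
      · simp
    · exact Finset.sum_congr rfl fun _ _ ↦ by ring

omit [IsScalarTower ℂ (Pol d) A] [IsScalarTower ℂ (Pol d) K] [IsScalarTower (Pol d) A K]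
  [IsScalarTower ℂ A K] [Algebra (Pol d) K] in
lemma derA_eq_zero_of_pol (δ : Derivation ℂ A K)
    (hP : ∀ p : Pol d, δ (algebraMap (Pol d) A p) = 0) (a : A) : δ a = 0 := by
  have : CharZero A := Algebra.charZero_of_charZero ℂ A
  have : CharZero (A ⧸ (⊥ : Ideal A)) :=
    charZero_of_injective_ringHom (R := A) (f := Ideal.Quotient.mk ⊥)
      ((injective_iff_map_eq_zero _).mpr fun x hx ↦ by
        simpa using Ideal.Quotient.eq_zero_iff_mem.mp hx)
  have : (⊥ : Ideal A).IsPrime := Ideal.isPrime_bot
  obtain ⟨f, hf, hf'⟩ := exists_poly (P := Pol d) (⊥ : Ideal A) a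
  have h1 := der_aeval_mem (P := Pol d) δ a ⊥ (fun c i ↦ by simp [hP]) f
  rw [Ideal.mem_bot] at hf
  rw [AddSubgroup.mem_bot, hf, map_zero, zero_sub, neg_eq_zero, Algebra.smul_def] at h1
  refine (mul_eq_zero.mp h1).resolve_left fun h2 ↦ hf' ?_
  rw [Ideal.mem_bot]
  exact IsFractionRing.injective A K (h2.trans (map_zero _).symm)

omit [Algebra (Pol d) A] [IsScalarTower ℂ (Pol d) A] [Algebra (Pol d) K] [IsScalarTower ℂ (Pol d) K]
  [IsScalarTower (Pol d) A K] [Algebra.IsIntegral (Pol d) A] [IsDomain A] [IsFractionRing A K] in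
@[simp] lemma compAlgebraMap_apply' (δ : Derivation ℂ K K) (a : A) :
    δ.compAlgebraMap A a = δ (algebraMap A K a) := rfl

omit [IsScalarTower ℂ (Pol d) A] [IsScalarTower ℂ (Pol d) K] in
variable (A) in
include A in
lemma der_eq_zero_of_pol (δ : Derivation ℂ K K)
    (h : ∀ p : Pol d, δ (algebraMap (Pol d) K p) = 0) : δ = 0 := by
  have hA : ∀ a : A, δ (algebraMap A K a) = 0 := fun a ↦
    derA_eq_zero_of_pol (d := d) (δ.compAlgebraMap A)
      (fun p ↦ by simp [← IsScalarTower.algebraMap_apply, h]) a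
  ext x
  obtain ⟨a, b, -, rfl⟩ := IsFractionRing.div_surjective (A := A) x
  simp [Derivation.leibniz_div, hA]

variable [Algebra.FormallyEtale (Pol d) K]

omit [IsScalarTower ℂ (Pol d) A] in
variable (A) in
include A in
lemma der_expand (δ : Derivation ℂ K K) :
    δ = ∑ l, δ (algebraMap (Pol d) K (MvPolynomial.X l)) • pd K l := by
  refine sub_eq_zero.mp (der_eq_zero_of_pol (d := d) A _ fun p ↦ ?_)
  rw [Derivation.sub_apply, sub_eq_zero, der_pol]
  rw [der_sum_apply]
  refine Finset.sum_congr rfl fun l _ ↦ ?_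
  simp [pd_algebraMap, mul_comm]

variable (K) in
/-- The unique extension to the fraction field of a derivation of `A`. -/
noncomputable def extD (D : Derivation ℂ A A) : Derivation ℂ K K :=
  ∑ l, algebraMap A K (D (algebraMap (Pol d) A (MvPolynomial.X l))) • pd K l

lemma extD_algebraMap (D : Derivation ℂ A A) (a : A) :
    extD (d := d) K D (algebraMap A K a) = algebraMap A K (D a) := by
  let δ : Derivation ℂ A K :=
    (extD (d := d) K D).compAlgebraMap A - (Algebra.linearMap A K).compDer D
  suffices δ a = 0 by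
    simpa [δ, sub_eq_zero] using this
  refine derA_eq_zero_of_pol (d := d) δ (fun p ↦ ?_) a
  have h1 : extD (d := d) K D (algebraMap (Pol d) K p) =
      ∑ l, algebraMap A K (D (algebraMap (Pol d) A (MvPolynomial.X l))) *
        algebraMap (Pol d) K (MvPolynomial.pderiv l p) := by
    simp [extD, der_sum_apply, pd_algebraMap, Algebra.smul_def]
  have h3 : D (algebraMap (Pol d) A p) = ∑ l, algebraMap (Pol d) A (MvPolynomial.pderiv l p) *
      D (algebraMap (Pol d) A (MvPolynomial.X l)) := by
    clear h1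
    induction p using MvPolynomial.induction_on with
    | C c =>
      rw [← MvPolynomial.algebraMap_eq, ← IsScalarTower.algebraMap_apply, D.map_algebraMap]
      simp [MvPolynomial.algebraMap_eq]
    | add p q hp hq =>
      simp only [map_add, add_mul, Finset.sum_add_distrib]
      rw [hp, hq]
    | mul_X p i hp =>
      rw [map_mul, D.leibniz, hp]
      simp only [smul_eq_mul, Derivation.leibniz, map_add, map_mul, add_mul, Finset.sum_add_distrib,
          Finset.mul_sum, MvPolynomial.pderiv_X]
      congr 1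
      · rw [Finset.sum_eq_single i]
        · simp
        · intro b _ hb
          simp [Pi.single_eq_of_ne (Ne.symm hb)]
        · simp
      · exact Finset.sum_congr rfl fun _ _ ↦ by ring
  simp only [δ, Derivation.sub_apply, compAlgebraMap_apply']
  simp [← IsScalarTower.algebraMap_apply, h1, h3, mul_comm]

lemma der_ext_on_X {D D' : Derivation ℂ A A}
    (h : ∀ l : Fin d, D (algebraMap (Pol d) A (MvPolynomial.X l)) =
      D' (algebraMap (Pol d) A (MvPolynomial.X l))) (K : Type*) [Field K] [Algebra ℂ K]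
    [Algebra (Pol d) K] [IsScalarTower ℂ (Pol d) K] [Algebra A K] [IsScalarTower ℂ A K]
    [IsScalarTower (Pol d) A K] [IsFractionRing A K] [Algebra.FormallyEtale (Pol d) K] :
    D = D' := by
  ext a
  apply IsFractionRing.injective A K
  rw [← extD_algebraMap (d := d), ← extD_algebraMap (d := d)]
  simp [extD, h]

omit [Algebra (Pol d) A] [IsScalarTower ℂ (Pol d) A] [Algebra (Pol d) K] [IsScalarTower ℂ (Pol d) K]
  [IsScalarTower (Pol d) A K] [Algebra.IsIntegral (Pol d) A] [IsDomain A] [Algebra.FormallyEtale (Pol d) K] in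
lemma mkDer_exists (δ : Derivation ℂ K K)
    (h : ∀ a : A, ∃ b : A, δ (algebraMap A K a) = algebraMap A K b) :
    ∃ D : Derivation ℂ A A, ∀ a, algebraMap A K (D a) = δ (algebraMap A K a) := by
  choose f hf using h
  have hi := IsFractionRing.injective A K
  refine ⟨Derivation.mk' { toFun := f, map_add' := fun x y ↦ hi ?_, map_smul' := fun r x ↦ hi ?_ }
    (fun x y ↦ hi ?_), fun a ↦ (hf a).symm⟩
  · simp [← hf]
  · simp [← hf, Algebra.smul_def, ← IsScalarTower.algebraMap_apply]
  · simp [← hf]

omit [Algebra (Pol d) A] [IsScalarTower ℂ (Pol d) A] [Algebra (Pol d) K] [IsScalarTower ℂ (Pol d) K]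
  [IsScalarTower (Pol d) A K] [Algebra.IsIntegral (Pol d) A] [IsFractionRing A K] [IsDomain A]
  [Algebra.FormallyEtale (Pol d) K] in
lemma clear_denominators [Algebra.FiniteType ℂ A] (S : Submonoid A) (δ : Derivation ℂ K K)
    (h : ∀ a : A, ∃ t ∈ S, ∃ b : A, algebraMap A K t * δ (algebraMap A K a) = algebraMap A K b) :
    ∃ t ∈ S, ∀ a : A, ∃ b : A, algebraMap A K t * δ (algebraMap A K a) = algebraMap A K b := by
  classical
  obtain ⟨s, hs⟩ := (Algebra.FiniteType.out : (⊤ : Subalgebra ℂ A).FG)
  choose t ht b hb using h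
  refine ⟨∏ x ∈ s, t x, S.prod_mem fun x _ ↦ ht x, fun a ↦ ?_⟩
  have ha : a ∈ Algebra.adjoin ℂ (s : Set A) := hs ▸ Algebra.mem_top
  induction ha using Algebra.adjoin_induction with
  | mem x hx =>
    refine ⟨(∏ y ∈ s.erase x, t y) * b x, ?_⟩
    rw [← Finset.mul_prod_erase s t hx, map_mul, map_mul, ← hb]
    ring
  | algebraMap r => exact ⟨0, by rw [← IsScalarTower.algebraMap_apply, δ.map_algebraMap]; simp⟩
  | add x y _ _ hx hy =>
    obtain ⟨b, hb⟩ := hx
    obtain ⟨c, hc⟩ := hy
    exact ⟨b + c, by simp only [map_add, mul_add, hb, hc]⟩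
  | mul x y _ _ hx hy =>
    obtain ⟨b, hb⟩ := hx
    obtain ⟨c, hc⟩ := hy
    refine ⟨x * c + y * b, ?_⟩
    simp only [map_mul, map_add, Derivation.leibniz, smul_eq_mul, ← hb, ← hc]
    ring

end

end Vale.Agent.P266
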