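import Vale.Agent.P266.Local

namespace Vale.Agent.P266

lemma finiteDimensional_fractionRing {P A : Type*} [CommRing P] [IsDomain P] [CommRing A]
    [IsDomain A] [Algebra P A] [Module.Finite P A] {L K : Type*} [Field L] [Field K]
    [Algebra P L] [IsFractionRing P L] [Algebra A K] [IsFractionRing A K] [Algebra P K]
    [IsScalarTower P A K] [Algebra L K] [IsScalarTower P L K] : FiniteDimensional L K := by
  classical
  obtain ⟨s, hs⟩ := Module.finite_def.mp (inferInstance : Module.Finite P A)
  let E : IntermediateField L K := IntermediateField.adjoin L (algebraMap A K '' (s : Set A))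
  have hfin : FiniteDimensional L E := by
    have : Finite (algebraMap A K '' (s : Set A)) := (s.finite_toSet.image _).to_subtype
    refine IntermediateField.finiteDimensional_adjoin ?_
    rintro _ ⟨a, -, rfl⟩
    exact ((Algebra.IsIntegral.isIntegral (R := P) a).map (IsScalarTower.toAlgHom P A K)).tower_top
  have hA : ∀ a : A, algebraMap A K a ∈ E := by
    intro a
    have ha : a ∈ Submodule.span P (s : Set A) := hs ▸ Submodule.mem_top
    induction ha using Submodule.span_induction with
    | mem x hx => exact IntermediateField.subset_adjoin L _ ⟨x, hx, rfl⟩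
    | zero => rw [map_zero]; exact E.zero_mem
    | add x y _ _ hx hy => rw [map_add]; exact E.add_mem hx hy
    | smul r x _ hx =>
      rw [Algebra.smul_def, map_mul, ← IsScalarTower.algebraMap_apply,
        IsScalarTower.algebraMap_apply P L K]
      exact E.mul_mem (E.algebraMap_mem _) hx
  have hE : E = ⊤ := by
    refine eq_top_iff.mpr fun x _ ↦ ?_
    obtain ⟨a, b, -, rfl⟩ := IsFractionRing.div_surjective (A := A) x
    exact E.div_mem (hA a) (hA b)
  rw [hE] at hfin
  exact Module.Finite.equiv (IntermediateField.topEquiv (F := L) (E := K)).toLinearEquiv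

section Bound

variable {d : ℕ} {A : Type*} [CommRing A] [IsDomain A] [Algebra ℂ A] [Algebra.FiniteType ℂ A]
  [Algebra (Pol d) A] [IsScalarTower ℂ (Pol d) A] [Algebra.IsIntegral (Pol d) A]
  [FaithfulSMul (Pol d) A]
  {K : Type*} [Field K] [CharZero K] [Algebra ℂ K] [Algebra (Pol d) K] [IsScalarTower ℂ (Pol d) K]
  [Algebra A K] [IsScalarTower ℂ A K] [IsScalarTower (Pol d) A K] [IsFractionRing A K]
  [Algebra.FormallyEtale (Pol d) K]
  {B : Type*} [CommRing B] [IsDomain B] [IsNoetherianRing B] [Algebra (Pol d) B] [Algebra A B]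
  [Algebra B K] [IsScalarTower (Pol d) A B] [IsScalarTower A B K] [IsScalarTower (Pol d) B K]
  [IsFractionRing B K] [IsIntegralClosure B (Pol d) K] [IsIntegrallyClosed B]

lemma exists_bound (h : A) (hh0 : h ≠ 0) (v : Fin d → Derivation ℂ A A)
    (hspan : ∀ D : Derivation ℂ A A, ∃ (k : ℕ) (c : Fin d → A),
      ∀ a, h ^ k * D a = ∑ i, c i * v i a)
    (c₀ : A) (hc₀ : c₀ ≠ 0) (hcond : ∀ b : B, ∃ a : A, algebraMap A K c₀ * algebraMap B K b =
      algebraMap A K a) :
    ∃ N : ℕ, ∀ (π : Pol d), Prime π → ∀ (P : Ideal B) [P.IsPrime],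
      P.comap (algebraMap (Pol d) B) = Ideal.span {π} →
      InMax K P (algebraMap (Pol d) K π * algebraMap A K h ^ N /
        algebraMap A K (valMatrix (d := d) v).det) := by
  classical
  have : Algebra.IsIntegral (Pol d) B := IsIntegralClosure.isIntegral_algebra (Pol d) K
  set F := valMatrix (d := d) v with hF
  have hJ : F.det ≠ 0 := det_valMatrix_ne_zero (d := d) K h hh0 v hspan
  have hJK : algebraMap A K F.det ≠ 0 :=
    (map_ne_zero_iff _ (IsFractionRing.injective A K)).mpr hJ
  have hjh : algebraMap A B h ≠ 0 := fun h0 ↦ hh0 <| IsFractionRing.injective A K <| by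
    rw [map_zero, IsScalarTower.algebraMap_apply A B K, h0, map_zero]
  -- uniform exponent at the divisor of h
  have hPbound : ∀ P : Ideal B, P.IsPrime → ∃ N : ℕ, ∀ (_ : P.IsPrime) (π : Pol d), Prime π →
      P.comap (algebraMap (Pol d) B) = Ideal.span {π} → algebraMap A B h ∈ P → ∀ n, N ≤ n →
      InMax K P (algebraMap (Pol d) K π * algebraMap A K h ^ n / algebraMap A K F.det) := by
    intro P hP
    by_cases hex : ∃ π : Pol d, Prime π ∧ P.comap (algebraMap (Pol d) B) = Ideal.span {π} ∧
        algebraMap A B h ∈ P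
    · obtain ⟨π, hπ, hPπ, hhP⟩ := hex
      have hJB : (Ideal.span {algebraMap A B F.det} : Ideal B) ≠ ⊥ := by
        rw [ne_eq, Ideal.span_singleton_eq_bot]
        intro h0
        exact hJK (by rw [IsScalarTower.algebraMap_apply A B K, h0, map_zero])
      obtain ⟨t', ht', k, hk⟩ := exists_pow_mem_of_only_primes
        (fun Q _ hle ↦ prime_le_of_comap_eq_span hπ hPπ hle) hJB hhP
      obtain ⟨b, hb⟩ := Ideal.mem_span_singleton'.mp hk
      refine ⟨k, fun _ π' _ hPπ' _ n hn ↦ ?_⟩
      obtain ⟨n, rfl⟩ := Nat.exists_eq_add_of_le hn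
      refine ⟨algebraMap (Pol d) B π' * b * algebraMap A B h ^ n, t',
        P.mul_mem_right _ (P.mul_mem_right _ ?_), ht', ?_⟩
      · have : π' ∈ P.comap (algebraMap (Pol d) B) := hPπ' ▸ Ideal.mem_span_singleton_self π'
        exact this
      · have := congrArg (algebraMap B K) hb
        simp only [map_mul, map_pow, ← IsScalarTower.algebraMap_apply] at this ⊢
        field_simp
        linear_combination -(algebraMap (Pol d) K π' * algebraMap A K h ^ n) * this
    · exact ⟨0, fun _ π hπ hPπ hhP ↦ absurd ⟨π, hπ, hPπ, hhP⟩ hex⟩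
  choose Nof hNof using hPbound
  have hfin : (Ideal.span {algebraMap A B h}).minimalPrimes.Finite :=
    Ideal.finite_minimalPrimes_of_isNoetherianRing B _
  let Nf : Ideal B → ℕ := fun P ↦ if hP : P.IsPrime then Nof P hP else 0
  let N : ℕ := hfin.toFinset.sup Nf
  have hall : ∀ (π : Pol d), Prime π → ∀ (P : Ideal B) [P.IsPrime],
      P.comap (algebraMap (Pol d) B) = Ideal.span {π} →
      InMax K P (algebraMap (Pol d) K π * algebraMap A K h ^ N / algebraMap A K F.det) := by
    intro π hπ P hP hPπ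
    by_cases hhP : algebraMap A B h ∈ P
    · refine hNof P hP hP π hπ hPπ hhP N ?_
      have hmin : P ∈ (Ideal.span {algebraMap A B h}).minimalPrimes := by
        refine ⟨⟨hP, (Ideal.span_singleton_le_iff_mem _).mpr hhP⟩, fun Q hQ hQP ↦ ?_⟩
        have := hQ.1
        rcases prime_le_of_comap_eq_span hπ hPπ hQP with h0 | h0
        · exact absurd (by simpa [h0] using hQ.2) hjh
        · exact h0 ▸ le_rfl
      have := Finset.le_sup (f := Nf) (hfin.mem_toFinset.mpr hmin)
      simpa [Nf, hP, N] using this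
    · have h1 := inMax_div_det h hh0 v hspan c₀ hc₀ hcond π hπ P hPπ hhP
      have h2 := h1.mul_mem (y := algebraMap A K h ^ N) (Subring.pow_mem _ (by
        rw [IsScalarTower.algebraMap_apply A B K]; exact algebraMap_mem_locRing _) N)
      rwa [div_mul_eq_mul_div] at h2
  exact ⟨N, hall⟩

end Bound

section Trace

variable {d : ℕ} {K : Type*} [Field K] [Algebra (Pol d) K] {L : Type*} [Field L]
  [Algebra (Pol d) L] [IsFractionRing (Pol d) L] [Algebra L K] [IsScalarTower (Pol d) L K]
  [FiniteDimensional L K] [Algebra.IsSeparable L K]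

/-- Every conjugate of a locally small element is small, so its trace is integral. -/
lemma trace_mem (x : K)
    (hx : ∀ (π : Pol d), Prime π → ∀ (P : Ideal (integralClosure (Pol d) K)) [P.IsPrime],
      P.comap (algebraMap (Pol d) (integralClosure (Pol d) K)) = Ideal.span {π} →
      InMax K P (algebraMap (Pol d) K π * x)) :
    ∃ q : Pol d, algebraMap (Pol d) L q = Algebra.trace L K x := by
  classical
  let B := integralClosure (Pol d) K
  let Ω := AlgebraicClosure L
  let O := integralClosure (Pol d) Ω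
  have hinjΩ : Function.Injective (algebraMap (Pol d) Ω) := by
    rw [IsScalarTower.algebraMap_eq (Pol d) L Ω]
    exact (FaithfulSMul.algebraMap_injective L Ω).comp (IsFractionRing.injective (Pol d) L)
  have hσint : ∀ (σ : K →ₐ[L] Ω) (b : B), IsIntegral (Pol d) (σ (algebraMap B K b)) := fun σ b ↦
    b.2.map (σ.restrictScalars (Pol d))
  let σB : (K →ₐ[L] Ω) → B →+* O := fun σ ↦
    { toFun := fun b ↦ ⟨σ (algebraMap B K b), hσint σ b⟩
      map_one' := Subtype.ext (by simp)
      map_mul' := fun x y ↦ Subtype.ext (by simp)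
      map_zero' := Subtype.ext (by simp)
      map_add' := fun x y ↦ Subtype.ext (by simp) }
  have hσpol : ∀ (σ : K →ₐ[L] Ω) (q : Pol d),
      σB σ (algebraMap (Pol d) B q) = algebraMap (Pol d) O q := fun σ q ↦ Subtype.ext <| by
    change σ (algebraMap B K (algebraMap (Pol d) B q)) = algebraMap (Pol d) Ω q
    rw [← IsScalarTower.algebraMap_apply]
    exact (σ.restrictScalars (Pol d)).commutes q
  have hkerO : RingHom.ker (algebraMap (Pol d) O) = ⊥ := by
    rw [← RingHom.injective_iff_ker_eq_bot]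
    intro x y hxy
    exact hinjΩ (congrArg Subtype.val hxy)
  obtain ⟨a, b, hab, hτ⟩ := IsFractionRing.exists_reduced_fraction (A := Pol d)
    (Algebra.trace L K x)
  by_cases hbu : IsUnit (b : Pol d)
  · obtain ⟨u, hu⟩ := hbu
    refine ⟨a * ↑u⁻¹, ?_⟩
    rw [← hτ, IsFractionRing.mk'_eq_div, map_mul, ← hu, div_eq_mul_inv]
    congr 1
    exact (map_units_inv (algebraMap (Pol d) L) u).trans rfl
  exfalso
  obtain ⟨π, hπirr, hπb⟩ := WfDvdMonoid.exists_irreducible_factor hbu
    (nonZeroDivisors.ne_zero b.2)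
  have hπ : Prime π := UniqueFactorizationMonoid.irreducible_iff_prime.mp hπirr
  have hπa : ¬ π ∣ a := fun hd ↦ hπ.not_isUnit (hab hd hπb)
  obtain ⟨b', hb'⟩ := hπb
  have hspanprime : (Ideal.span {π}).IsPrime := (Ideal.span_singleton_prime hπ.ne_zero).mpr hπ
  obtain ⟨Q, hQprime, hQ⟩ := Ideal.exists_ideal_over_prime_of_isIntegral_of_isDomain
    (S := O) (Ideal.span {π}) (hkerO ▸ bot_le)
  have hconj : ∀ σ : K →ₐ[L] Ω, ∃ (T U : O), T ∉ Q ∧ U ∈ Q ∧
      (T : Ω) * σ (algebraMap (Pol d) K π * x) = U := by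
    intro σ
    have : (Q.comap (σB σ)).IsPrime := Ideal.comap_isPrime _ _
    have hP : (Q.comap (σB σ)).comap (algebraMap (Pol d) B) = Ideal.span {π} := by
      rw [← hQ]
      ext q
      simp [Ideal.mem_comap, hσpol]
    have h1 := hx π hπ _ hP
    obtain ⟨u, s, hu, hs, hus⟩ := h1
    refine ⟨σB σ s, σB σ u, hs, hu, ?_⟩
    change σ (algebraMap B K s) * _ = σ (algebraMap B K u)
    rw [← map_mul, ← hus, mul_comm]
  choose T U hT hU hTU using hconj
  let Tp : O := ∏ σ, T σ
  have hTp : Tp ∉ Q := fun hmem' ↦ by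
    obtain ⟨σ, -, hσ⟩ := hQprime.prod_mem_iff.mp hmem'
    exact hT σ hσ
  let S : O := ∑ σ, (∏ τ ∈ Finset.univ.erase σ, T τ) * U σ
  have hS : S ∈ Q := Q.sum_mem fun σ _ ↦ Q.mul_mem_left _ (hU σ)
  have hSval : (S : Ω) = (Tp : Ω) * algebraMap L Ω (Algebra.trace L K
      (algebraMap (Pol d) K π * x)) := by
    rw [trace_eq_sum_embeddings Ω, Finset.mul_sum]
    simp only [S, Tp]
    push_cast
    refine Finset.sum_congr rfl fun σ _ ↦ ?_
    rw [← hTU, ← mul_assoc, ← Finset.prod_erase_mul _ _ (Finset.mem_univ σ)]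
  have heq : S * algebraMap (Pol d) O b' = Tp * algebraMap (Pol d) O a := by
    apply Subtype.ext
    push_cast
    rw [hSval, mul_assoc]
    congr 1
    rw [IsScalarTower.algebraMap_apply (Pol d) L K, ← Algebra.smul_def (algebraMap (Pol d) L π) x,
      map_smul, smul_eq_mul, ← hτ, IsFractionRing.mk'_eq_div, hb']
    simp only [IsScalarTower.algebraMap_apply (Pol d) L Ω, ← map_mul]
    congr 1
    have hb0 : b' ≠ 0 := fun h0 ↦ nonZeroDivisors.ne_zero b.2 (by rw [hb', h0, mul_zero])
    have hπ0 : algebraMap (Pol d) L π ≠ 0 :=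
      (map_ne_zero_iff _ (IsFractionRing.injective _ _)).mpr hπ.ne_zero
    have hb'0 : algebraMap (Pol d) L b' ≠ 0 :=
      (map_ne_zero_iff _ (IsFractionRing.injective _ _)).mpr hb0
    rw [map_mul]
    field_simp
  have h2 : Tp * algebraMap (Pol d) O a ∈ Q := heq ▸ Q.mul_mem_right _ hS
  have h3 : a ∈ Q.comap (algebraMap (Pol d) O) := (hQprime.mem_or_mem h2).resolve_left hTp
  rw [hQ, Ideal.mem_span_singleton] at h3
  exact hπa h3

end Trace

section Fibre

variable {d : ℕ} {A : Type*} [CommRing A] [IsDomain A] [Algebra (Pol d) A]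
  [Algebra.IsIntegral (Pol d) A]
  {K : Type*} [Field K] [Algebra (Pol d) K] [Algebra A K] [IsScalarTower (Pol d) A K]
  [IsFractionRing A K] {L : Type*} [Field L] [Algebra (Pol d) L] [IsFractionRing (Pol d) L]
  [Algebra L K] [IsScalarTower (Pol d) L K] [FiniteDimensional L K] [Algebra.IsSeparable L K]

/-- An element which is one at a point of the fibre over the origin and zero or one at the others
has trace non-vanishing at the origin. -/
lemma trace_not_mem {I₀ : Ideal (Pol d)} [I₀.IsPrime] (hchar : ∀ n : ℕ, (n : Pol d) ∈ I₀ → n = 0)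
    (m : Ideal A) [m.IsPrime] (hmI₀ : m.comap (algebraMap (Pol d) A) = I₀)
    (H : A) (hH1 : H - 1 ∈ m)
    (hH0 : ∀ y ∈ I₀.primesOver A, y ≠ m → H ∈ y)
    (p : Pol d) (hp : p ∈ I₀) (hTrH : algebraMap (Pol d) L p =
      Algebra.trace L K (algebraMap A K H)) : False := by
  classical
  let B := integralClosure (Pol d) K
  let jAB : A →+* B :=
    { toFun := fun a ↦ ⟨algebraMap A K a,
        (Algebra.IsIntegral.isIntegral (R := Pol d) a).map (IsScalarTower.toAlgHom (Pol d) A K)⟩
      map_one' := Subtype.ext (map_one _)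
      map_mul' := fun x y ↦ Subtype.ext (map_mul _ x y)
      map_zero' := Subtype.ext (map_zero _)
      map_add' := fun x y ↦ Subtype.ext (map_add _ x y) }
  let : Algebra A B := jAB.toAlgebra
  have : IsScalarTower A B K := IsScalarTower.of_algebraMap_eq fun _ ↦ rfl
  have : IsScalarTower (Pol d) A B := IsScalarTower.of_algebraMap_eq fun x ↦
    Subtype.ext (IsScalarTower.algebraMap_apply (Pol d) A K x)
  let Ω := AlgebraicClosure L
  let O := integralClosure (Pol d) Ω
  have hinjΩ : Function.Injective (algebraMap (Pol d) Ω) := by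
    rw [IsScalarTower.algebraMap_eq (Pol d) L Ω]
    exact (FaithfulSMul.algebraMap_injective L Ω).comp (IsFractionRing.injective (Pol d) L)
  have hσint : ∀ (σ : K →ₐ[L] Ω) (b : B), IsIntegral (Pol d) (σ (algebraMap B K b)) := fun σ b ↦
    b.2.map (σ.restrictScalars (Pol d))
  let σB : (K →ₐ[L] Ω) → B →+* O := fun σ ↦
    { toFun := fun b ↦ ⟨σ (algebraMap B K b), hσint σ b⟩
      map_one' := Subtype.ext (by simp)
      map_mul' := fun x y ↦ Subtype.ext (by simp)
      map_zero' := Subtype.ext (by simp)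
      map_add' := fun x y ↦ Subtype.ext (by simp) }
  have hσpol : ∀ (σ : K →ₐ[L] Ω) (q : Pol d),
      σB σ (algebraMap (Pol d) B q) = algebraMap (Pol d) O q := fun σ q ↦ Subtype.ext <| by
    change σ (algebraMap B K (algebraMap (Pol d) B q)) = algebraMap (Pol d) Ω q
    rw [← IsScalarTower.algebraMap_apply]
    exact (σ.restrictScalars (Pol d)).commutes q
  -- a prime of the closure over m
  obtain ⟨σ₀⟩ : Nonempty (K →ₐ[L] Ω) := ⟨IsAlgClosed.lift⟩
  let f₀ : A →+* O := (σB σ₀).comp (algebraMap A B)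
  let : Algebra A O := f₀.toAlgebra
  have : IsScalarTower (Pol d) A O := IsScalarTower.of_algebraMap_eq fun x ↦ by
    change algebraMap (Pol d) O x = σB σ₀ (algebraMap A B (algebraMap (Pol d) A x))
    rw [← IsScalarTower.algebraMap_apply, hσpol]
  have : Algebra.IsIntegral A O := Algebra.IsIntegral.tower_top (Pol d)
  have hker₀ : RingHom.ker (algebraMap A O) = ⊥ := by
    rw [← RingHom.injective_iff_ker_eq_bot]
    intro x y hxy
    have := congrArg Subtype.val hxy
    exact IsFractionRing.injective A K (σ₀.injective this)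
  obtain ⟨Q, hQprime, hQ⟩ := Ideal.exists_ideal_over_prime_of_isIntegral_of_isDomain
    (S := O) m (hker₀ ▸ bot_le)
  have hQpol : Q.comap (algebraMap (Pol d) O) = I₀ := by
    rw [IsScalarTower.algebraMap_eq (Pol d) A O, ← Ideal.comap_comap, hQ, hmI₀]
  have hval : ∀ σ : K →ₐ[L] Ω, σB σ (algebraMap A B H) ∈ Q ∨
      σB σ (algebraMap A B H) - 1 ∈ Q := by
    intro σ
    let f : A →+* O := (σB σ).comp (algebraMap A B)
    have hy : Q.comap f ∈ I₀.primesOver A := by
      refine ⟨Ideal.comap_isPrime f Q, (Ideal.liesOver_iff _ _).mpr ?_⟩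
      rw [Ideal.under, Ideal.comap_comap, ← hQpol]
      congr 1
      refine RingHom.ext fun x ↦ ?_
      change algebraMap (Pol d) O x = σB σ (algebraMap A B (algebraMap (Pol d) A x))
      rw [← IsScalarTower.algebraMap_apply, hσpol]
    by_cases hym : Q.comap f = m
    · right
      have : H - 1 ∈ Q.comap f := hym.symm ▸ hH1
      simpa [f] using this
    · left
      exact hH0 _ hy hym
  have hσ₀ : σB σ₀ (algebraMap A B H) - 1 ∈ Q := by
    have : H - 1 ∈ Q.comap (algebraMap A O) := hQ.symm ▸ hH1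
    rw [Ideal.mem_comap, map_sub, map_one] at this
    exact this
  set ones := Finset.univ.filter fun σ : K →ₐ[L] Ω ↦ σB σ (algebraMap A B H) - 1 ∈ Q
  have hdiff : (∑ σ, σB σ (algebraMap A B H)) - (ones.card : O) ∈ Q := by
    rw [← Finset.sum_filter_add_sum_filter_not Finset.univ
      (fun σ : K →ₐ[L] Ω ↦ σB σ (algebraMap A B H) - 1 ∈ Q),
      show (ones.card : O) = ∑ σ ∈ ones, (1 : O) by simp, add_sub_right_comm,
      ← Finset.sum_sub_distrib]
    refine Q.add_mem (Q.sum_mem fun σ hσ ↦ (Finset.mem_filter.mp hσ).2) (Q.sum_mem fun σ hσ ↦ ?_)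
    exact (hval σ).resolve_right (Finset.mem_filter.mp hσ).2
  have hsumQ : (∑ σ, σB σ (algebraMap A B H)) ∈ Q := by
    have hpol : (∑ σ, σB σ (algebraMap A B H)) =
        algebraMap (Pol d) O p := by
      apply Subtype.ext
      push_cast
      change ∑ σ : K →ₐ[L] Ω, σ (algebraMap B K (algebraMap A B H)) = _
      simp only [← IsScalarTower.algebraMap_apply]
      rw [← trace_eq_sum_embeddings Ω, ← hTrH, ← IsScalarTower.algebraMap_apply]
    rw [hpol]
    rw [← hQpol] at hp
    exact hp
  have hcard : ((ones.card : Pol d)) ∈ I₀ := by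
    rw [← hQpol, Ideal.mem_comap, map_natCast]
    simpa using Q.sub_mem hsumQ hdiff
  have hc0 : ones.card = 0 := hchar _ hcard
  exact (Finset.card_eq_zero.mp hc0 ▸ Finset.notMem_empty σ₀)
    (Finset.mem_filter.mpr ⟨Finset.mem_univ _, hσ₀⟩)


end Fibre

/-- The key residue lemma: the Jacobian determinant with respect to a basis of derivations does
not lie in the ideal generated by a Noether normalisation. -/
theorem det_not_mem {d : ℕ} {A : Type*} [CommRing A] [IsDomain A] [Algebra ℂ A]
    [Algebra.FiniteType ℂ A] [Algebra (Pol d) A] [IsScalarTower ℂ (Pol d) A]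
    [Module.Finite (Pol d) A] [FaithfulSMul (Pol d) A] (m : Ideal A) [m.IsMaximal]
    (hm : ∀ l, algebraMap (Pol d) A (MvPolynomial.X l) ∈ m)
    (h : A) (hh : h ∉ m) (v : Fin d → Derivation ℂ A A)
    (hspan : ∀ D : Derivation ℂ A A, ∃ (k : ℕ) (c : Fin d → A),
      ∀ a, h ^ k * D a = ∑ i, c i * v i a)
    (t : A) (ht : t ∉ m) :
    t * (valMatrix (d := d) v).det ∉
      Ideal.span (Set.range fun l ↦ algebraMap (Pol d) A (MvPolynomial.X l)) := by
  classical
  intro hmem
  let L := FractionRing (Pol d)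
  let K := FractionRing A
  have : IsScalarTower ℂ A K := inferInstance
  have : CharZero K := Algebra.charZero_of_charZero ℂ K
  have : FaithfulSMul (Pol d) K := (faithfulSMul_iff_algebraMap_injective _ _).mpr <| by
    rw [IsScalarTower.algebraMap_eq (Pol d) A K]
    exact (IsFractionRing.injective A K).comp (FaithfulSMul.algebraMap_injective _ _)
  let : Algebra L K := FractionRing.liftAlgebra (Pol d) K
  have : IsScalarTower (Pol d) L K := FractionRing.isScalarTower_liftAlgebra (Pol d) K
  have : FiniteDimensional L K := finiteDimensional_fractionRing (P := Pol d) (A := A)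
  have : CharZero L := Algebra.charZero_of_charZero ℂ L
  have : Algebra.IsSeparable L K := inferInstance
  have : Algebra.FormallyEtale L K := Algebra.FormallyEtale.of_isSeparable L K
  have : Algebra.FormallyEtale (Pol d) L :=
    Algebra.FormallyEtale.of_isLocalization (nonZeroDivisors (Pol d))
  have : Algebra.FormallyEtale (Pol d) K := Algebra.FormallyEtale.comp (Pol d) L K
  let B := integralClosure (Pol d) K
  have : IsFractionRing B K := integralClosure.isFractionRing_of_finite_extension L K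
  have : IsIntegrallyClosed B := integralClosure.isIntegrallyClosedOfFiniteExtension L
  have : Module.Finite (Pol d) B := IsIntegralClosure.finite (Pol d) L K B
  have : IsNoetherianRing B := IsNoetherianRing.of_finite (Pol d) B
  let jAB : A →+* B :=
    { toFun := fun a ↦ ⟨algebraMap A K a,
        (Algebra.IsIntegral.isIntegral (R := Pol d) a).map (IsScalarTower.toAlgHom (Pol d) A K)⟩
      map_one' := Subtype.ext (map_one _)
      map_mul' := fun x y ↦ Subtype.ext (map_mul _ x y)
      map_zero' := Subtype.ext (map_zero _)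
      map_add' := fun x y ↦ Subtype.ext (map_add _ x y) }
  let : Algebra A B := jAB.toAlgebra
  have : IsScalarTower A B K := IsScalarTower.of_algebraMap_eq fun _ ↦ rfl
  have : IsScalarTower (Pol d) A B := IsScalarTower.of_algebraMap_eq fun x ↦
    Subtype.ext (IsScalarTower.algebraMap_apply (Pol d) A K x)
  have hh0 : h ≠ 0 := fun h0 ↦ hh (h0 ▸ m.zero_mem)
  -- a conductor
  obtain ⟨c₀, hc₀, hcond⟩ : ∃ c₀ : A, c₀ ≠ 0 ∧ ∀ b : B, ∃ a : A,
      algebraMap A K c₀ * algebraMap B K b = algebraMap A K a := by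
    obtain ⟨s, hs⟩ := Module.finite_def.mp (inferInstance : Module.Finite (Pol d) B)
    obtain ⟨⟨c, hc⟩, hcs⟩ := IsLocalization.exist_integer_multiples (nonZeroDivisors A) s
      (fun b : B ↦ algebraMap B K b)
    refine ⟨c, nonZeroDivisors.ne_zero hc, fun b ↦ ?_⟩
    have hb : b ∈ Submodule.span (Pol d) (s : Set B) := hs ▸ Submodule.mem_top
    induction hb using Submodule.span_induction with
    | mem x hx =>
      obtain ⟨a, ha⟩ := hcs x hx
      exact ⟨a, by rw [ha, Algebra.smul_def]⟩
    | zero => exact ⟨0, by simp⟩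
    | add x y _ _ hx hy =>
      obtain ⟨a, ha⟩ := hx
      obtain ⟨a', ha'⟩ := hy
      exact ⟨a + a', by rw [map_add, map_add, mul_add, ha, ha']⟩
    | smul r x _ hx =>
      obtain ⟨a, ha⟩ := hx
      refine ⟨algebraMap (Pol d) A r * a, ?_⟩
      rw [map_mul, ← ha, Algebra.smul_def, map_mul, ← IsScalarTower.algebraMap_apply,
        ← IsScalarTower.algebraMap_apply]
      ring
  set F := valMatrix (d := d) v with hF
  have hJ : F.det ≠ 0 := det_valMatrix_ne_zero (d := d) K h hh0 v hspan
  have hJK : algebraMap A K F.det ≠ 0 :=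
    (map_ne_zero_iff _ (IsFractionRing.injective A K)).mpr hJ
  obtain ⟨N, hall⟩ := exists_bound (B := B) h hh0 v hspan c₀ hc₀ hcond
  -- integrality of the traces
  have htr : ∀ r : A, ∃ q : Pol d, algebraMap (Pol d) L q =
      Algebra.trace L K (algebraMap A K h ^ N * algebraMap A K r / algebraMap A K F.det) := by
    intro r
    refine trace_mem _ fun π hπ P hP hPπ ↦ ?_
    have h1 := (hall π hπ P hPπ).mul_mem (y := algebraMap A K r) (by
      rw [IsScalarTower.algebraMap_apply A B K]; exact algebraMap_mem_locRing _)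
    convert h1 using 1
    ring
  -- the fibre over the origin
  let I₀ : Ideal (Pol d) :=
    RingHom.ker (MvPolynomial.eval (fun _ : Fin d ↦ (0 : ℂ)))
  have hI₀max : I₀.IsMaximal :=
    RingHom.ker_isMaximal_of_surjective _ fun c ↦ ⟨MvPolynomial.C c, by simp⟩
  set gspan : Ideal A := Ideal.span (Set.range fun l ↦ algebraMap (Pol d) A (MvPolynomial.X l))
  have hI₀gen : I₀ = Ideal.span (Set.range MvPolynomial.X) := by
    refine le_antisymm (fun p hp ↦ ?_) (Ideal.span_le.mpr ?_)
    · rw [← Set.image_univ, MvPolynomial.mem_ideal_span_X_image]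
      intro e he
      by_contra! hall'
      have he0 : e = 0 := Finsupp.ext fun l ↦ hall' l (Set.mem_univ l)
      have hp0 : p.coeff 0 = 0 := by
        simpa [I₀, MvPolynomial.eval_zero', MvPolynomial.constantCoeff_eq] using hp
      exact MvPolynomial.mem_support_iff.mp he (he0 ▸ hp0)
    · rintro _ ⟨l, rfl⟩
      simp [I₀]
  have hgI : gspan = I₀.map (algebraMap (Pol d) A) := by
    rw [hI₀gen, Ideal.map_span, ← Set.range_comp]
    rfl
  have hmI₀ : m.comap (algebraMap (Pol d) A) = I₀ := by
    refine (hI₀max.eq_of_le (Ideal.comap_ne_top _ ‹m.IsMaximal›.ne_top) ?_).symm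
    rw [← Ideal.map_le_iff_le_comap, ← hgI, Ideal.span_le]
    rintro _ ⟨l, rfl⟩
    exact hm l
  have hfibfin : (I₀.primesOver A).Finite := Algebra.QuasiFinite.finite_primesOver I₀
  let others : Finset (Ideal A) := hfibfin.toFinset.erase m
  have hoth : ∀ y ∈ others, y.IsPrime ∧ ¬ y ≤ m := by
    intro y hy
    obtain ⟨hne, hy⟩ := Finset.mem_erase.mp hy
    obtain ⟨hyp, hyo⟩ := hfibfin.mem_toFinset.mp hy
    refine ⟨hyp, fun hle ↦ hne ?_⟩
    have hymax : y.IsMaximal := Ideal.isMaximal_of_isIntegral_of_isMaximal_comap y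
      ((Ideal.liesOver_iff _ _).mp hyo ▸ hI₀max : (y.under (Pol d)).IsMaximal)
    exact hymax.eq_of_le ‹m.IsMaximal›.ne_top hle
  obtain ⟨w, hwy, hwm⟩ : ∃ w : A, (∀ y ∈ others, w ∈ y) ∧ w ∉ m := by
    have : ∀ y : others, ∃ w ∈ (y : Ideal A), w ∉ m := fun y ↦
      SetLike.not_le_iff_exists.mp (hoth y.1 y.2).2
    choose f hf hfm using this
    refine ⟨∏ y, f y, fun y hy ↦ ?_, fun hmem' ↦ ?_⟩
    · rw [← Finset.mul_prod_erase _ _ (Finset.mem_univ ⟨y, hy⟩)]
      exact y.mul_mem_right _ (hf ⟨y, hy⟩)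
    · obtain ⟨y, -, hy⟩ := (inferInstance : m.IsPrime).prod_mem_iff.mp hmem'
      exact hfm y hy
  let e := w * t * h ^ N
  have hem : e ∉ m := by
    intro he
    rcases (inferInstance : m.IsPrime).mem_or_mem he with h1 | h1
    · exact ((inferInstance : m.IsPrime).mem_or_mem h1).elim hwm ht
    · exact hh ((inferInstance : m.IsPrime).mem_of_pow_mem N h1)
  obtain ⟨q, i, hi, hqi⟩ := ‹m.IsMaximal›.exists_inv hem
  set H := q * e with hH
  have hH1 : H - 1 ∈ m := by
    rw [← hqi]
    simpa [H] using m.neg_mem hi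
  obtain ⟨a, ha⟩ := (Submodule.mem_span_range_iff_exists_fun A).mp hmem
  have hHJ : algebraMap A K H = ∑ l, algebraMap (Pol d) K (MvPolynomial.X l) *
      (algebraMap A K h ^ N * algebraMap A K (q * w * a l) / algebraMap A K F.det) := by
    simp only [mul_div_assoc', ← Finset.sum_div]
    rw [eq_div_iff hJK]
    simp only [H, e, IsScalarTower.algebraMap_apply (Pol d) A K, ← map_pow, ← map_mul, ← map_sum]
    congr 1
    rw [show q * (w * t * h ^ N) * F.det = h ^ N * q * w * (t * F.det) by ring, hF, ← ha,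
      Finset.mul_sum]
    exact Finset.sum_congr rfl fun l _ ↦ by rw [smul_eq_mul]; ring
  choose τ hτ using fun l ↦ htr (q * w * a l)
  have hTrH : Algebra.trace L K (algebraMap A K H) =
      algebraMap (Pol d) L (∑ l, MvPolynomial.X l * τ l) := by
    rw [hHJ, map_sum, map_sum]
    refine Finset.sum_congr rfl fun l _ ↦ ?_
    rw [IsScalarTower.algebraMap_apply (Pol d) L K, ← Algebra.smul_def, map_smul, smul_eq_mul,
      map_mul (algebraMap (Pol d) L), hτ]
  have : I₀.IsPrime := hI₀max.isPrime
  refine trace_not_mem (K := K) (L := L) (I₀ := I₀) (fun n hn ↦ by simpa [I₀] using hn) m hmI₀ H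
    hH1 (fun y hy hym ↦ ?_) _ (I₀.sum_mem fun l _ ↦ I₀.mul_mem_right _ (by simp [I₀])) hTrH.symm
  have hw' := hwy _ (Finset.mem_erase.mpr ⟨hym, hfibfin.mem_toFinset.mpr hy⟩)
  simp only [H, e]
  exact Ideal.mul_mem_left _ _ (Ideal.mul_mem_right _ _ (Ideal.mul_mem_right _ _ hw'))

end Vale.Agent.P266
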