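import Vale.Agent.P266.Setup

namespace Vale.Agent.P266

open Matrix

lemma totalDegree_pderiv_lt {d : ℕ} {r : Pol d} {l : Fin d}
    (hne : MvPolynomial.pderiv l r ≠ 0) :
    (MvPolynomial.pderiv l r).totalDegree < r.totalDegree := by
  classical
  obtain ⟨m, hm, hmdeg⟩ := Finset.exists_mem_eq_sup (MvPolynomial.pderiv l r).support
    (MvPolynomial.support_nonempty.mpr hne) (fun s ↦ s.sum fun _ e ↦ e)
  have hmem : m + Finsupp.single l 1 ∈ r.support := by
    rw [MvPolynomial.mem_support_iff] at hm ⊢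
    intro h0
    exact hm (by rw [MvPolynomial.coeff_pderiv, h0]; simp)
  have h2 := MvPolynomial.le_totalDegree hmem
  rw [Finsupp.sum_add_index' (fun _ ↦ rfl) (fun _ _ _ ↦ rfl), Finsupp.sum_single_index rfl] at h2
  have h3 : (MvPolynomial.pderiv l r).totalDegree = m.sum fun _ e ↦ e := hmdeg
  omega

lemma eq_C_of_pderiv_eq_zero {d : ℕ} {r : Pol d} (hz : ∀ l, MvPolynomial.pderiv l r = 0) :
    r = MvPolynomial.C (r.coeff 0) := by
  classical
  ext m
  by_cases hm : m = 0
  · simp [hm]
  · rw [MvPolynomial.coeff_C, if_neg (Ne.symm hm)]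
    obtain ⟨l, hl⟩ : ∃ l, m l ≠ 0 := by
      by_contra! h
      exact hm (Finsupp.ext h)
    have := congrArg (MvPolynomial.coeff (m - Finsupp.single l 1)) (hz l)
    rw [MvPolynomial.coeff_pderiv, tsub_add_cancel_of_le, MvPolynomial.coeff_zero] at this
    · rcases mul_eq_zero.mp this with h | h
      · exact h
      · exact absurd h (Nat.cast_add_one_ne_zero _)
    · exact Finsupp.single_le_iff.mpr (Nat.one_le_iff_ne_zero.mpr hl)

lemma exists_pderiv_not_dvd {d : ℕ} {π : Pol d} (hπ : Prime π) :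
    ∃ l, ¬ π ∣ MvPolynomial.pderiv l π := by
  classical
  by_contra! hall
  have hz : ∀ l, MvPolynomial.pderiv l π = 0 := by
    intro l
    by_contra hne
    obtain ⟨q, hq⟩ := hall l
    have hq0 : q ≠ 0 := fun hq0 ↦ hne (by rw [hq, hq0, mul_zero])
    have h1 := MvPolynomial.totalDegree_mul_of_isDomain hπ.ne_zero hq0
    have h2 := totalDegree_pderiv_lt hne
    rw [← hq] at h1
    omega
  apply hπ.not_isUnit
  rw [eq_C_of_pderiv_eq_zero hz]
  refine (Ne.isUnit (fun h0 ↦ hπ.ne_zero ?_)).map MvPolynomial.C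
  rw [eq_C_of_pderiv_eq_zero hz, h0, map_zero]

lemma prime_le_of_comap_eq_span {d : ℕ} {R : Type*} [CommRing R] [IsDomain R] [Algebra (Pol d) R]
    [Algebra.IsIntegral (Pol d) R] {π : Pol d} (hπ : Prime π)
    {Q Q' : Ideal R} [Q'.IsPrime] (hQ : Q.comap (algebraMap (Pol d) R) = Ideal.span {π})
    (hle : Q' ≤ Q) : Q' = ⊥ ∨ Q' = Q := by
  by_cases h0 : Q'.comap (algebraMap (Pol d) R) = ⊥
  · exact Or.inl (Ideal.eq_bot_of_comap_eq_bot h0)
  right
  have hle' : Q'.comap (algebraMap (Pol d) R) ≤ Ideal.span {π} := hQ ▸ Ideal.comap_mono hle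
  obtain ⟨q, hq, hqp⟩ := Ideal.IsPrime.exists_mem_prime_of_ne_bot
    (inferInstance : (Q'.comap (algebraMap (Pol d) R)).IsPrime) h0
  have hass : Associated π q := hπ.associated_of_dvd hqp (Ideal.mem_span_singleton.mp (hle' hq))
  have heq : Q'.comap (algebraMap (Pol d) R) = Q.comap (algebraMap (Pol d) R) := by
    rw [hQ]
    refine le_antisymm hle' ((Ideal.span_singleton_le_iff_mem _).mpr ?_)
    exact Ideal.mem_of_dvd _ hass.symm.dvd hq
  by_contra hne
  obtain ⟨x, hx, hx'⟩ := Set.exists_of_ssubset (lt_of_le_of_ne hle hne : Q' < Q)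
  exact (Ideal.comap_lt_comap_of_integral_mem_sdiff hle ⟨hx, hx'⟩
    (Algebra.IsIntegral.isIntegral x)).ne heq

lemma exists_pow_mem_of_only_primes {R : Type*} [CommRing R] {p : Ideal R} [p.IsPrime]
    (hp : ∀ Q : Ideal R, Q.IsPrime → Q ≤ p → Q = ⊥ ∨ Q = p) {I : Ideal R} (hI : I ≠ ⊥)
    {x : R} (hx : x ∈ p) : ∃ t ∉ p, ∃ k : ℕ, t * x ^ k ∈ I := by
  by_contra! hno
  let S : Submonoid R := p.primeCompl ⊔ Submonoid.powers x
  have hdis : Disjoint (I : Set R) S := by
    rw [Set.disjoint_left]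
    intro y hy hy'
    obtain ⟨t, ht, z, ⟨k, rfl⟩, rfl⟩ := Submonoid.mem_sup.mp hy'
    exact hno t ht k hy
  obtain ⟨Q, hQ, hIQ, hQd⟩ := Ideal.exists_le_prime_disjoint I S hdis
  have hQp : Q ≤ p := fun y hy ↦ by
    by_contra h
    exact Set.disjoint_left.mp hQd hy (Submonoid.mem_sup_left h)
  rcases hp Q hQ hQp with h | h
  · exact hI (eq_bot_iff.mpr (h ▸ hIQ))
  · exact Set.disjoint_left.mp hQd (h ▸ hx)
      (Submonoid.mem_sup_right (Submonoid.mem_powers x))

section

variable {B : Type*} [CommRing B] [IsDomain B] (K : Type*) [Field K] [Algebra B K]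

/-- The local ring of a prime inside a field. -/
def locRing (P : Ideal B) [P.IsPrime] : Subring K where
  carrier := {x | ∃ a t : B, t ∉ P ∧ x * algebraMap B K t = algebraMap B K a}
  one_mem' := ⟨1, 1, fun h ↦ ‹P.IsPrime›.ne_top ((Ideal.eq_top_iff_one P).mpr h), by simp⟩
  zero_mem' := ⟨0, 1, fun h ↦ ‹P.IsPrime›.ne_top ((Ideal.eq_top_iff_one P).mpr h), by simp⟩
  neg_mem' := by
    rintro x ⟨a, t, ht, h⟩
    exact ⟨-a, t, ht, by rw [map_neg, ← h, neg_mul]⟩
  mul_mem' := by
    rintro x y ⟨a, t, ht, h⟩ ⟨a', t', ht', h'⟩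
    exact ⟨a * a', t * t', fun hh ↦ (‹P.IsPrime›.mem_or_mem hh).elim ht ht', by
      rw [map_mul, map_mul, ← h, ← h']; ring⟩
  add_mem' := by
    rintro x y ⟨a, t, ht, h⟩ ⟨a', t', ht', h'⟩
    exact ⟨a * t' + a' * t, t * t', fun hh ↦ (‹P.IsPrime›.mem_or_mem hh).elim ht ht', by
      rw [map_add, map_mul, map_mul, map_mul, ← h, ← h']; ring⟩

/-- The maximal ideal of the local ring of a prime inside a field. -/
def InMax (P : Ideal B) (x : K) : Prop :=
  ∃ a t : B, a ∈ P ∧ t ∉ P ∧ x * algebraMap B K t = algebraMap B K a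

variable {K} {P : Ideal B} [P.IsPrime]

omit [IsDomain B] in
lemma algebraMap_mem_locRing (b : B) : algebraMap B K b ∈ locRing K P :=
  ⟨b, 1, fun h ↦ ‹P.IsPrime›.ne_top ((Ideal.eq_top_iff_one P).mpr h), by simp⟩

omit [IsDomain B] in
lemma inMax_algebraMap {b : B} (hb : b ∈ P) : InMax K P (algebraMap B K b) :=
  ⟨b, 1, hb, fun h ↦ ‹P.IsPrime›.ne_top ((Ideal.eq_top_iff_one P).mpr h), by simp⟩

omit [IsDomain B] in
lemma InMax.mul_mem {x y : K} (hx : InMax K P x) (hy : y ∈ locRing K P) :
    InMax K P (x * y) := by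
  obtain ⟨a, t, ha, ht, h⟩ := hx
  obtain ⟨a', t', ht', h'⟩ := hy
  exact ⟨a * a', t * t', P.mul_mem_right _ ha, fun hh ↦ (‹P.IsPrime›.mem_or_mem hh).elim ht ht', by
    rw [map_mul, map_mul, ← h, ← h']; ring⟩

variable [IsFractionRing B K]

lemma InMax.mem_iff {b : B} : InMax K P (algebraMap B K b) ↔ b ∈ P := by
  refine ⟨fun ⟨a, t, ha, ht, h⟩ ↦ ?_, inMax_algebraMap⟩
  rw [← map_mul] at h
  exact (‹P.IsPrime›.mem_or_mem (IsFractionRing.injective B K h ▸ ha)).resolve_right ht

lemma inv_mem_locRing {t : B} (ht : t ∉ P) : (algebraMap B K t)⁻¹ ∈ locRing K P :=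
  ⟨1, t, ht, by
    rw [inv_mul_cancel₀, map_one]
    rw [ne_eq, map_eq_zero_iff _ (IsFractionRing.injective B K)]
    exact fun h ↦ ht (h ▸ P.zero_mem)⟩

lemma not_inMax_one : ¬ InMax K P (1 : K) := by
  intro h
  rw [← (algebraMap B K).map_one, InMax.mem_iff] at h
  exact ‹P.IsPrime›.ne_top ((Ideal.eq_top_iff_one P).mpr h)

lemma exists_uniformizer [IsNoetherianRing B] [IsIntegrallyClosed B]
    (hP : ∀ Q : Ideal B, Q.IsPrime → Q ≤ P → Q = ⊥ ∨ Q = P) (hP0 : P ≠ ⊥) :
    ∃ ϖ : K, ϖ ≠ 0 ∧ InMax K P ϖ ∧ ∀ x ∈ locRing K P, x ≠ 0 →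
      ∃ (n : ℕ), ∃ u ∈ locRing K P, u⁻¹ ∈ locRing K P ∧ x = u * ϖ ^ n := by
  let V := Localization.AtPrime P
  have hle : P.primeCompl ≤ nonZeroDivisors B := P.primeCompl_le_nonZeroDivisors
  have : IsDomain V := IsLocalization.isDomain_of_le_nonZeroDivisors V hle
  have : IsIntegrallyClosed V := isIntegrallyClosed_of_isLocalization V P.primeCompl hle
  have : IsNoetherianRing V := IsLocalization.isNoetherianRing P.primeCompl V inferInstance
  have hdim : ∀ Q : Ideal V, Q ≠ ⊥ → Q.IsPrime → Q = IsLocalRing.maximalIdeal V := by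
    intro Q hQ hQp
    obtain ⟨hc, hd⟩ := (IsLocalization.isPrime_iff_isPrime_disjoint P.primeCompl V Q).mp hQp
    have hle' : Q.comap (algebraMap B V) ≤ P := fun y hy ↦ by
      by_contra h
      exact Set.disjoint_left.mp hd h hy
    rcases hP _ hc hle' with h | h
    · exact absurd (by rw [← IsLocalization.map_under P.primeCompl V Q, h, Ideal.map_bot]) hQ
    · rw [← IsLocalization.map_under P.primeCompl V Q, h,
        Localization.AtPrime.map_eq_maximalIdeal]
  have : Ring.DimensionLEOne V := ⟨fun {Q} hQ hQp ↦ hdim Q hQ hQp ▸ IsLocalRing.maximalIdeal.isMaximal V⟩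
  have : IsDedekindRing V := ⟨⟩
  have : IsDedekindDomain V := ⟨⟩
  have : IsPrincipalIdealRing V := IsPrincipalIdealRing.of_finite_maximals <| by
    refine Set.Subsingleton.finite fun I hI J hJ ↦ ?_
    rw [IsLocalRing.eq_maximalIdeal hI, IsLocalRing.eq_maximalIdeal hJ]
  have hm : IsLocalRing.maximalIdeal V ≠ ⊥ := by
    rw [← Localization.AtPrime.map_eq_maximalIdeal]
    obtain ⟨b, hb, hb0⟩ := Submodule.exists_mem_ne_zero_of_ne_bot hP0
    intro h
    have := Ideal.mem_map_of_mem (algebraMap B V) hb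
    rw [h, Ideal.mem_bot, map_eq_zero_iff _ (IsLocalization.injective V hle)] at this
    exact hb0 this
  have : IsDiscreteValuationRing V := { not_a_field' := hm }
  have hu : ∀ t : P.primeCompl, IsUnit (algebraMap B K t) := fun t ↦
    isUnit_iff_ne_zero.mpr fun h ↦ t.2 ((map_eq_zero_iff _ (IsFractionRing.injective B K)).mp h ▸
      P.zero_mem)
  let φ : V →+* K := IsLocalization.lift hu
  have hφ : ∀ (a : B) (t : P.primeCompl),
      φ (IsLocalization.mk' V a t) * algebraMap B K t = algebraMap B K a := by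
    intro a t
    rw [← IsLocalization.lift_eq (S := V) hu (↑t : B), ← map_mul, IsLocalization.mk'_spec,
      IsLocalization.lift_eq]
  have hφmem : ∀ x : V, φ x ∈ locRing K P := fun x ↦ by
    obtain ⟨a, t, rfl⟩ := IsLocalization.exists_mk'_eq P.primeCompl x
    exact ⟨a, t, t.2, hφ a t⟩
  have hφinj : Function.Injective φ := by
    rw [IsLocalization.lift_injective_iff]
    exact fun a b ↦ ⟨fun h ↦ congrArg _ (IsLocalization.injective V hle h),
      fun h ↦ congrArg _ (IsFractionRing.injective B K h)⟩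
  obtain ⟨ϖ, hϖ⟩ := IsDiscreteValuationRing.exists_irreducible V
  refine ⟨φ ϖ, (map_ne_zero_iff φ hφinj).mpr hϖ.ne_zero, ?_, ?_⟩
  · obtain ⟨a, t, hat⟩ := IsLocalization.exists_mk'_eq P.primeCompl ϖ
    refine ⟨a, t, ?_, t.2, hat ▸ hφ a t⟩
    by_contra ha
    apply hϖ.not_isUnit
    rw [← hat]
    exact (IsLocalization.AtPrime.isUnit_mk'_iff V P a t).mpr ha
  · intro x hx hx0
    obtain ⟨a, t, ht, h⟩ := hx
    have hxeq : x = φ (IsLocalization.mk' V a ⟨t, ht⟩) :=
      mul_right_cancel₀ (hu ⟨t, ht⟩).ne_zero (h.trans (hφ a ⟨t, ht⟩).symm)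
    have hv : IsLocalization.mk' V a (⟨t, ht⟩ : P.primeCompl) ≠ 0 := fun h0 ↦
      hx0 (by rw [hxeq, h0, map_zero])
    obtain ⟨n, u, hu'⟩ := IsDiscreteValuationRing.eq_unit_mul_pow_irreducible hv hϖ
    exact ⟨n, φ u, hφmem _, by rw [← map_units_inv]; exact hφmem _,
      by rw [hxeq, hu', map_mul, map_pow]⟩

end

section Main

variable {d : ℕ} {A : Type*} [CommRing A] [IsDomain A] [Algebra ℂ A] [Algebra.FiniteType ℂ A]
  [Algebra (Pol d) A] [IsScalarTower ℂ (Pol d) A] [Algebra.IsIntegral (Pol d) A]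
  [FaithfulSMul (Pol d) A]
  {K : Type*} [Field K] [CharZero K] [Algebra ℂ K] [Algebra (Pol d) K] [IsScalarTower ℂ (Pol d) K]
  [Algebra A K] [IsScalarTower ℂ A K] [IsScalarTower (Pol d) A K] [IsFractionRing A K]
  [Algebra.FormallyEtale (Pol d) K]
  {B : Type*} [CommRing B] [IsDomain B] [IsNoetherianRing B] [Algebra (Pol d) B] [Algebra A B]
  [Algebra B K] [IsScalarTower (Pol d) A B] [IsScalarTower A B K] [IsScalarTower (Pol d) B K]
  [IsFractionRing B K] [IsIntegralClosure B (Pol d) K] [IsIntegrallyClosed B]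
  (h : A) (hh0 : h ≠ 0) (v : Fin d → Derivation ℂ A A)
  (hspan : ∀ D : Derivation ℂ A A, ∃ (k : ℕ) (c : Fin d → A),
    ∀ a, h ^ k * D a = ∑ i, c i * v i a)
  (c₀ : A) (hc₀ : c₀ ≠ 0) (hcond : ∀ b : B, ∃ a : A, algebraMap A K c₀ * algebraMap B K b =
    algebraMap A K a)

/-- The matrix of values of derivations on the coordinates. -/
noncomputable def valMatrix (v : Fin d → Derivation ℂ A A) : Matrix (Fin d) (Fin d) A :=
  Matrix.of fun i l ↦ v i (algebraMap (Pol d) A (MvPolynomial.X l))

include hh0 hspan in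
variable (K) in
include K in
omit [CharZero K] [FaithfulSMul (Pol d) A] in
lemma det_valMatrix_ne_zero : (valMatrix (d := d) v).det ≠ 0 := by
  classical
  have hrow : ∀ l : Fin d, ∃ (s : A), s ≠ 0 ∧ ∃ c : Fin d → A,
      c ᵥ* valMatrix (d := d) v = Pi.single l s := by
    intro l
    obtain ⟨t, ht, ht'⟩ := clear_denominators (nonZeroDivisors A) (pd K l) (fun a ↦ by
      obtain ⟨x, y, hy, hxy⟩ := IsFractionRing.div_surjective (A := A) (pd K l (algebraMap A K a))
      refine ⟨y, hy, x, ?_⟩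
      rw [← hxy, mul_div_cancel₀]
      exact (map_ne_zero_iff _ (IsFractionRing.injective A K)).mpr (nonZeroDivisors.ne_zero hy))
    obtain ⟨D, hD⟩ := mkDer_exists (algebraMap A K t • pd K l)
      (fun a ↦ by rw [Derivation.smul_apply, smul_eq_mul]; exact ht' a)
    obtain ⟨k, c, hc⟩ := hspan D
    refine ⟨h ^ k * t, mul_ne_zero (pow_ne_zero _ hh0) (nonZeroDivisors.ne_zero ht), c, ?_⟩
    funext m
    have h1 : D (algebraMap (Pol d) A (MvPolynomial.X m)) = (Pi.single l t : Fin d → A) m := by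
      apply IsFractionRing.injective A K
      rw [hD]
      simp [← IsScalarTower.algebraMap_apply, pd_algebraMap, MvPolynomial.pderiv_X,
        Pi.single_apply, eq_comm, apply_ite (algebraMap A K)]
      split_ifs <;> simp [Algebra.smul_def]
    simp only [vecMul, dotProduct, valMatrix, Matrix.of_apply, ← hc, h1]
    by_cases hml : m = l
    · simp [hml]
    · simp [Pi.single_eq_of_ne hml]
  choose s hs c hc using hrow
  have : Matrix.of c * valMatrix (d := d) v = Matrix.diagonal s := by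
    refine Matrix.ext fun l m ↦ ?_
    have := congrFun (hc l) m
    simp only [vecMul, dotProduct] at this
    rw [Matrix.mul_apply]
    simp only [Matrix.of_apply, this]
    by_cases hml : m = l
    · simp [hml]
    · simp [Pi.single_eq_of_ne hml, Matrix.diagonal_apply_ne _ (Ne.symm hml)]
  intro h0
  have h' := congrArg Matrix.det this
  rw [Matrix.det_mul, h0, mul_zero, Matrix.det_diagonal] at h'
  exact Finset.prod_ne_zero_iff.mpr (fun l _ ↦ hs l) h'.symm

include hc₀ hcond in
lemma extD_mem (D : Derivation ℂ A A) (b : B) :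
    ∃ b' : B, extD (d := d) K D (algebraMap B K b) = algebraMap B K b' := by
  let S : Subalgebra ℂ K := (IsScalarTower.toAlgHom ℂ A K).range
  have hS : ∀ a ∈ S, extD (d := d) K D a ∈ S := by
    rintro _ ⟨a, rfl⟩
    exact ⟨D a, (extD_algebraMap D a).symm⟩
  set x := algebraMap B K b
  have hpow : ∀ n : ℕ, algebraMap A K c₀ * x ^ n ∈ S := fun n ↦ by
    obtain ⟨a, ha⟩ := hcond (b ^ n)
    exact ⟨a, by rw [← map_pow, ha]; rfl⟩
  have hal := almost_integral_der (extD (d := d) K D) S hS hpow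
  set y := extD (d := d) K D x
  have hint : IsIntegral A y := by
    have : IsNoetherianRing A := Algebra.FiniteType.isNoetherianRing ℂ A
    refine IsIntegral.of_mem_of_fg (Algebra.adjoin A {y}) ?_ y (Algebra.subset_adjoin rfl)
    have hle : Subalgebra.toSubmodule (Algebra.adjoin A {y}) ≤
        Submodule.span A {((algebraMap A K c₀) ^ 2)⁻¹} := by
      rw [Algebra.adjoin_eq_span, Submodule.span_le]
      intro z hz
      obtain ⟨n, rfl⟩ := Submonoid.mem_closure_singleton.mp hz
      obtain ⟨a, ha⟩ := hal n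
      rw [SetLike.mem_coe, Submodule.mem_span_singleton]
      refine ⟨a, ?_⟩
      have hne : algebraMap A K c₀ ≠ 0 := (map_ne_zero_iff _ (IsFractionRing.injective A K)).mpr hc₀
      rw [Algebra.smul_def, show algebraMap A K a = _ from ha]
      field_simp
    have : IsNoetherian A (Submodule.span A {((algebraMap A K c₀) ^ 2)⁻¹}) :=
      isNoetherian_of_fg_of_noetherian _ (Submodule.fg_span_singleton _)
    have := isNoetherian_of_le hle
    exact Module.Finite.iff_fg.mp inferInstance
  obtain ⟨b', hb'⟩ := (IsIntegralClosure.isIntegral_iff (A := B)).mp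
    (isIntegral_trans (R := Pol d) y hint)
  exact ⟨b', hb'.symm⟩

include hh0 hspan hc₀ hcond in
lemma conductor_not_mem (π : Pol d) (hπ : Prime π) (p : Ideal A) [p.IsPrime]
    (hp : p.comap (algebraMap (Pol d) A) = Ideal.span {π}) (hhp : h ∉ p) :
    ∃ c ∉ p, ∀ b : B, ∃ a : A, algebraMap A K c * algebraMap B K b = algebraMap A K a := by
  classical
  let C : Ideal A :=
    { carrier := {c | ∀ b : B, ∃ a : A, algebraMap A K c * algebraMap B K b = algebraMap A K a}
      zero_mem' := fun b ↦ ⟨0, by simp⟩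
      add_mem' := fun {x y} hx hy b ↦ by
        obtain ⟨a, ha⟩ := hx b
        obtain ⟨a', ha'⟩ := hy b
        exact ⟨a + a', by rw [map_add, map_add, add_mul, ha, ha']⟩
      smul_mem' := fun r x hx b ↦ by
        obtain ⟨a, ha⟩ := hx b
        exact ⟨r * a, by rw [smul_eq_mul, map_mul, map_mul, mul_assoc, ha]⟩ }
  suffices ∃ c ∉ p, c ∈ C from this
  by_contra! hall
  have hCp : C ≤ p := fun x hx ↦ by
    by_contra hxp
    exact hall x hxp hx
  have hprimes : ∀ Q : Ideal A, Q.IsPrime → Q ≤ p → Q = ⊥ ∨ Q = p := fun Q _ hle ↦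
    prime_le_of_comap_eq_span hπ hp hle
  have hC : C ≠ ⊥ := fun h0 ↦ hc₀ (by
    have : c₀ ∈ C := hcond
    rwa [h0, Ideal.mem_bot] at this)
  have hstab : ∀ (D : Derivation ℂ A A), ∀ c ∈ C, D c ∈ C := by
    intro D c hc b
    obtain ⟨b', hb'⟩ := extD_mem (d := d) c₀ hc₀ hcond D b
    obtain ⟨a, ha⟩ := hc b
    obtain ⟨a', ha'⟩ := hc b'
    refine ⟨D a - a', ?_⟩
    have := congrArg (extD (d := d) K D) ha
    rw [Derivation.leibniz, extD_algebraMap, extD_algebraMap, hb', smul_eq_mul, smul_eq_mul,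
      ha'] at this
    rw [map_sub, ← this]
    ring
  have hcast : ∀ k : ℕ, k ≠ 0 → (k : A) ∉ p := fun k hk hmem ↦ by
    apply ‹p.IsPrime›.ne_top
    refine Ideal.eq_top_of_isUnit_mem _ hmem ?_
    rw [← map_natCast (algebraMap ℂ A)]
    exact (isUnit_iff_ne_zero.mpr (Nat.cast_ne_zero.mpr hk)).map _
  have hDp : ∀ (D : Derivation ℂ A A), ∀ x ∈ p, D x ∈ p := by
    intro D x hx
    by_contra hDx
    obtain ⟨t, ht, k, htk⟩ := exists_pow_mem_of_only_primes hprimes hC hx
    induction k generalizing t with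
    | zero =>
      rw [pow_zero, mul_one] at htk
      exact ht (hCp htk)
    | succ k ih =>
      refine ih (((k + 1 : ℕ) : A) * t ^ 2 * D x) ?_ ?_
      · intro hmem
        rcases ‹p.IsPrime›.mem_or_mem hmem with h1 | h1
        · rcases ‹p.IsPrime›.mem_or_mem h1 with h2 | h2
          · exact hcast _ (Nat.succ_ne_zero k) h2
          · exact ht (‹p.IsPrime›.mem_of_pow_mem 2 h2)
        · exact hDx h1
      · have h1 : t * D (t * x ^ (k + 1)) - D t * (t * x ^ (k + 1)) ∈ C :=
          C.sub_mem (C.mul_mem_left _ (hstab D _ htk)) (C.mul_mem_left _ htk)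
        convert h1 using 1
        simp only [Derivation.leibniz, Derivation.leibniz_pow, smul_eq_mul, nsmul_eq_mul,
          Nat.add_sub_cancel]
        ring
  obtain ⟨l₀, hl₀⟩ := exists_pderiv_not_dvd hπ
  have hπp : algebraMap (Pol d) A π ∈ p := by
    have : π ∈ p.comap (algebraMap (Pol d) A) := hp ▸ Ideal.mem_span_singleton_self π
    exact this
  have hpolder : ∀ (D : Derivation ℂ A A) (q : Pol d), D (algebraMap (Pol d) A q) =
      ∑ l, algebraMap (Pol d) A (MvPolynomial.pderiv l q) *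
        D (algebraMap (Pol d) A (MvPolynomial.X l)) := by
    intro D q
    apply IsFractionRing.injective A K
    rw [← extD_algebraMap (d := d), ← IsScalarTower.algebraMap_apply, der_pol]
    simp only [map_sum, map_mul, ← extD_algebraMap (d := d), ← IsScalarTower.algebraMap_apply]
  let Fbar : Matrix (Fin d) (Fin d) (A ⧸ p) := (valMatrix (d := d) v).map (Ideal.Quotient.mk p)
  have hdet : Fbar.det = 0 := by
    rw [← Matrix.exists_mulVec_eq_zero_iff]
    refine ⟨fun l ↦ Ideal.Quotient.mk p (algebraMap (Pol d) A (MvPolynomial.pderiv l π)),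
      fun h0 ↦ hl₀ ?_, funext fun i ↦ ?_⟩
    · have : MvPolynomial.pderiv l₀ π ∈ p.comap (algebraMap (Pol d) A) :=
        Ideal.mem_comap.mpr (Ideal.Quotient.eq_zero_iff_mem.mp (congrFun h0 l₀))
      rwa [hp, Ideal.mem_span_singleton] at this
    · simp only [Fbar, mulVec, dotProduct, valMatrix, Matrix.map_apply, Matrix.of_apply,
        ← map_mul, ← map_sum, Pi.zero_apply]
      rw [Ideal.Quotient.eq_zero_iff_mem]
      have := hDp (v i) _ hπp
      rw [hpolder] at this
      convert this using 1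
      exact Finset.sum_congr rfl fun _ _ ↦ mul_comm _ _
  obtain ⟨cbar, hcne, hceq⟩ := Matrix.exists_vecMul_eq_zero_iff.mpr hdet
  choose c hc using fun i ↦ Ideal.Quotient.mk_surjective (cbar i)
  obtain ⟨i₀, hi₀⟩ := Function.ne_iff.mp hcne
  have hci₀ : c i₀ ∉ p := fun h' ↦ hi₀ (by rw [← hc]; exact Ideal.Quotient.eq_zero_iff_mem.mpr h')
  let w : Derivation ℂ A A := ∑ i, c i • v i
  have hwX : ∀ l, w (algebraMap (Pol d) A (MvPolynomial.X l)) = (c ᵥ* valMatrix (d := d) v) l :=
    fun l ↦ by simp [w, der_sum_apply, vecMul, dotProduct, valMatrix]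
  have hwp : ∀ a, w a ∈ p := by
    intro a
    have hgl : ∀ l, w (algebraMap (Pol d) A (MvPolynomial.X l)) ∈ p := fun l ↦ by
      rw [hwX, ← Ideal.Quotient.eq_zero_iff_mem]
      have := congrFun hceq l
      simp only [Fbar, vecMul, dotProduct, Matrix.map_apply, Pi.zero_apply, ← hc, ← map_mul,
        ← map_sum] at this
      exact this
    have : CharZero (A ⧸ p) := Algebra.charZero_of_charZero ℂ (A ⧸ p)
    obtain ⟨f, hf, hf'⟩ := exists_poly (P := Pol d) p a
    have h1 := der_aeval_mem (P := Pol d) w a p.toAddSubgroup (fun q i ↦ by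
      rw [smul_eq_mul]
      exact p.mul_mem_left _ (hpolder w q ▸ p.sum_mem fun l _ ↦ p.mul_mem_left _ (hgl l))) f
    have h2 : Polynomial.aeval a (Polynomial.derivative f) * w a ∈ p := by
      have := p.sub_mem (hDp w _ hf) h1
      simpa using this
    exact (‹p.IsPrime›.mem_or_mem h2).resolve_left hf'
  obtain ⟨a₀, ha₀p, ha₀⟩ : ∃ a₀ ∈ p, a₀ ≠ 0 := by
    refine Submodule.exists_mem_ne_zero_of_ne_bot fun hb ↦ hC ?_
    exact eq_bot_iff.mpr (hb ▸ hCp)
  let I : Ideal A :=
    { carrier := {x | ∃ t ∉ p, t * x ∈ Ideal.span {a₀}}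
      zero_mem' := ⟨1, fun h' ↦ ‹p.IsPrime›.ne_top ((Ideal.eq_top_iff_one p).mpr h'), by simp⟩
      add_mem' := by
        rintro x y ⟨t, ht, hx⟩ ⟨t', ht', hy⟩
        refine ⟨t * t', fun h' ↦ (‹p.IsPrime›.mem_or_mem h').elim ht ht', ?_⟩
        rw [mul_add, show t * t' * x = t' * (t * x) by ring, show t * t' * y = t * (t' * y) by ring]
        exact Ideal.add_mem _ (Ideal.mul_mem_left _ _ hx) (Ideal.mul_mem_left _ _ hy)
      smul_mem' := by
        rintro r x ⟨t, ht, hx⟩
        exact ⟨t, ht, by rw [smul_eq_mul, mul_left_comm]; exact Ideal.mul_mem_left _ _ hx⟩ }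
  have hnoeth : IsNoetherianRing A := Algebra.FiniteType.isNoetherianRing ℂ A
  have hIrad : p ≤ I.radical := fun x hx ↦ by
    obtain ⟨t, ht, k, hk⟩ := exists_pow_mem_of_only_primes hprimes
      (I := Ideal.span {a₀}) (by simpa using ha₀) hx
    exact ⟨k, t, ht, hk⟩
  have hexn : ∃ n, p ^ n ≤ I :=
    Ideal.exists_pow_le_of_le_radical_of_fg hIrad (IsNoetherian.noetherian p)
  have hn0 : Nat.find hexn ≠ 0 := by
    intro h0
    have h1 := Nat.find_spec hexn
    rw [h0, pow_zero, Ideal.one_eq_top] at h1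
    obtain ⟨t, ht, hta⟩ := h1 (Submodule.mem_top (x := (1 : A)))
    rw [mul_one] at hta
    exact ht ((Ideal.span_singleton_le_iff_mem p).mpr ha₀p hta)
  obtain ⟨n, hn⟩ := Nat.exists_eq_succ_of_ne_zero hn0
  obtain ⟨b, hb, hbI⟩ : ∃ b ∈ p ^ n, b ∉ I := SetLike.not_le_iff_exists.mp
    (Nat.find_min hexn (by omega))
  obtain ⟨s, hs⟩ := (IsNoetherian.noetherian p : p.FG)
  have hbx : ∀ x ∈ p, ∃ t ∉ p, t * (b * x) ∈ Ideal.span {a₀} := fun x hx ↦ by
    have h1 := Nat.find_spec hexn
    rw [hn, pow_succ] at h1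
    exact h1 (Ideal.mul_mem_mul hb hx)
  obtain ⟨T, hTp, hT⟩ : ∃ T ∉ p, ∀ x ∈ p, T * (b * x) ∈ Ideal.span {a₀} := by
    have hmem : ∀ x : s, (x : A) ∈ p := fun x ↦ hs ▸ Ideal.subset_span x.2
    choose t ht htx using fun x : s ↦ hbx x.1 (hmem x)
    refine ⟨∏ x, t x, fun h' ↦ ?_, fun x hx ↦ ?_⟩
    · obtain ⟨x, -, hxp⟩ := ‹p.IsPrime›.prod_mem_iff.mp h'
      exact ht x hxp
    · rw [← hs] at hx
      refine Submodule.span_induction ?_ (by simp) ?_ ?_ hx
      · intro y hy
        rw [← Finset.mul_prod_erase _ _ (Finset.mem_univ ⟨y, hy⟩), mul_right_comm]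
        exact Ideal.mul_mem_right _ _ (htx ⟨y, hy⟩)
      · intro y z _ _ hy hz
        rw [mul_add, mul_add]
        exact Ideal.add_mem _ hy hz
      · intro r y _ hy
        rw [smul_eq_mul, mul_left_comm b, mul_left_comm]
        exact Ideal.mul_mem_left _ _ hy
  have ha₀K : algebraMap A K a₀ ≠ 0 := (map_ne_zero_iff _ (IsFractionRing.injective A K)).mpr ha₀
  let δ : Derivation ℂ K K :=
    (algebraMap A K (T * b) / algebraMap A K a₀) • extD (d := d) K w
  obtain ⟨D, hD⟩ := mkDer_exists δ (fun a ↦ by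
    obtain ⟨z, hz⟩ := Ideal.mem_span_singleton'.mp (hT _ (hwp a))
    refine ⟨z, ?_⟩
    simp only [δ, Derivation.smul_apply, extD_algebraMap, smul_eq_mul]
    field_simp
    rw [← map_mul, ← map_mul, mul_comm a₀, ← show T * b * w a = z * a₀ by rw [hz]; ring])
  obtain ⟨k, c', hc'⟩ := hspan D
  have hvec : ((h ^ k * T * b) • c - a₀ • c') ᵥ* valMatrix (d := d) v = 0 := by
    funext l
    apply IsFractionRing.injective A K
    have h1 := congrArg (algebraMap A K) (hc' (algebraMap (Pol d) A (MvPolynomial.X l)))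
    have h2 : (c' ᵥ* valMatrix (d := d) v) l =
        ∑ i, c' i * v i (algebraMap (Pol d) A (MvPolynomial.X l)) := by
      simp [vecMul, dotProduct, valMatrix]
    rw [← h2, map_mul, hD] at h1
    simp only [δ, Derivation.smul_apply, extD_algebraMap, smul_eq_mul, hwX] at h1
    rw [Pi.zero_apply, map_zero, Matrix.sub_vecMul, Matrix.smul_vecMul, Matrix.smul_vecMul,
      Pi.sub_apply, Pi.smul_apply, Pi.smul_apply, smul_eq_mul, smul_eq_mul, map_sub, map_mul,
      map_mul, map_mul, map_mul]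
    rw [map_mul] at h1
    field_simp at h1
    linear_combination h1
  have hzero := Matrix.eq_zero_of_vecMul_eq_zero (det_valMatrix_ne_zero (d := d) K h hh0 v hspan) hvec
  have h2 : h ^ k * T * b * c i₀ = a₀ * c' i₀ := sub_eq_zero.mp (congrFun hzero i₀)
  apply hbI
  refine ⟨h ^ k * T * c i₀, fun hmem ↦ ?_, ?_⟩
  · rcases ‹p.IsPrime›.mem_or_mem hmem with h1 | h1
    · rcases ‹p.IsPrime›.mem_or_mem h1 with h3 | h3
      · exact hhp (‹p.IsPrime›.mem_of_pow_mem k h3)
      · exact hTp h3
    · exact hci₀ h1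
  · exact Ideal.mem_span_singleton'.mpr ⟨c' i₀, by linear_combination -h2⟩

include hh0 hspan hc₀ hcond in
lemma inMax_div_det (π : Pol d) (hπ : Prime π) (P : Ideal B) [P.IsPrime]
    (hP : P.comap (algebraMap (Pol d) B) = Ideal.span {π}) (hhP : algebraMap A B h ∉ P) :
    InMax K P (algebraMap (Pol d) K π / algebraMap A K (valMatrix (d := d) v).det) := by
  classical
  have : Algebra.IsIntegral (Pol d) B := IsIntegralClosure.isIntegral_algebra (Pol d) K
  let p : Ideal A := P.comap (algebraMap A B)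
  have hp : p.comap (algebraMap (Pol d) A) = Ideal.span {π} := by
    rw [← hP, Ideal.comap_comap, ← IsScalarTower.algebraMap_eq]
  obtain ⟨cp, hcp, hcpB⟩ := conductor_not_mem h hh0 v hspan c₀ hc₀ hcond π hπ p hp hhP
  have hπP : algebraMap (Pol d) B π ∈ P := by
    have : π ∈ P.comap (algebraMap (Pol d) B) := hP ▸ Ideal.mem_span_singleton_self π
    exact this
  have hinj : Function.Injective (algebraMap (Pol d) B) := by
    have h1 : Function.Injective (algebraMap (Pol d) K) := by
      rw [IsScalarTower.algebraMap_eq (Pol d) A K]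
      exact (IsFractionRing.injective A K).comp (FaithfulSMul.algebraMap_injective (Pol d) A)
    rw [IsScalarTower.algebraMap_eq (Pol d) B K, RingHom.coe_comp] at h1
    exact Function.Injective.of_comp h1
  have hP0 : P ≠ ⊥ := fun h0 ↦ by
    rw [h0, Ideal.mem_bot, map_eq_zero_iff _ hinj] at hπP
    exact hπ.ne_zero hπP
  obtain ⟨ϖ, hϖ0, hϖP, hfac⟩ := exists_uniformizer (K := K)
    (fun Q _ hle ↦ prime_le_of_comap_eq_span hπ hP hle) hP0
  let V := locRing K P
  have hAV : ∀ a : A, algebraMap A K a ∈ V := fun a ↦ by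
    rw [IsScalarTower.algebraMap_apply A B K]
    exact algebraMap_mem_locRing _
  have hPolV : ∀ q : Pol d, algebraMap (Pol d) K q ∈ V := fun q ↦ by
    rw [IsScalarTower.algebraMap_apply (Pol d) B K]
    exact algebraMap_mem_locRing _
  obtain ⟨e', u, hu, hui, hπu⟩ := hfac _ (hPolV π)
    (by rw [IsScalarTower.algebraMap_apply (Pol d) B K]
        exact (map_ne_zero_iff _ (IsFractionRing.injective B K)).mpr
          ((map_ne_zero_iff _ hinj).mpr hπ.ne_zero))
  obtain ⟨e, rfl⟩ : ∃ e, e' = e + 1 := by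
    refine Nat.exists_eq_succ_of_ne_zero fun h0 ↦ not_inMax_one (K := K) (P := P) ?_
    have h1 : InMax K P (algebraMap (Pol d) K π) := by
      rw [IsScalarTower.algebraMap_apply (Pol d) B K]
      exact inMax_algebraMap hπP
    have h2 := h1.mul_mem hui
    rwa [hπu, h0, pow_zero, mul_one, mul_inv_cancel₀] at h2
    rintro rfl
    rw [h0, zero_mul, IsScalarTower.algebraMap_apply (Pol d) B K, map_eq_zero_iff _
      (IsFractionRing.injective B K), map_eq_zero_iff _ hinj] at hπu
    exact hπ.ne_zero hπu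
  set F := valMatrix (d := d) v
  set J := algebraMap A K F.det
  have hJ0 : J ≠ 0 := (map_ne_zero_iff _ (IsFractionRing.injective A K)).mpr
    (det_valMatrix_ne_zero (d := d) K h hh0 v hspan)
  obtain ⟨j, uJ, huJ, huJi, hJu⟩ := hfac J (hAV _) hJ0
  have huJ0 : uJ ≠ 0 := by
    rintro rfl
    exact hJ0 (by rw [hJu, zero_mul])
  obtain ⟨l₀, hl₀⟩ := exists_pderiv_not_dvd hπ
  set π' := fun l ↦ algebraMap (Pol d) K (MvPolynomial.pderiv l π) with hπ'
  have hl₀P : algebraMap (Pol d) B (MvPolynomial.pderiv l₀ π) ∉ P := fun h' ↦ by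
    have : MvPolynomial.pderiv l₀ π ∈ P.comap (algebraMap (Pol d) B) := h'
    rw [hP, Ideal.mem_span_singleton] at this
    exact hl₀ this
  have hπ'inv : (π' l₀)⁻¹ ∈ V := by
    simp only [hπ', IsScalarTower.algebraMap_apply (Pol d) B K]
    exact inv_mem_locRing hl₀P
  have hπ'0 : π' l₀ ≠ 0 := by
    simp only [hπ', IsScalarTower.algebraMap_apply (Pol d) B K]
    exact (map_ne_zero_iff _ (IsFractionRing.injective B K)).mpr fun h' ↦ hl₀P (h' ▸ P.zero_mem)
  let col : Fin d → K := fun m ↦ if m = l₀ then ϖ ^ e / π' l₀ else -π' m / π' l₀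
  let R : Matrix (Fin d) (Fin d) K := (1 : Matrix (Fin d) (Fin d) K).updateCol l₀ col
  have hϖV : ϖ ∈ V := let ⟨a, t, _, ht, h'⟩ := hϖP; ⟨a, t, ht, h'⟩
  have hcolV : ∀ m, col m ∈ V := fun m ↦ by
    simp only [col]
    split_ifs
    · rw [div_eq_mul_inv]; exact V.mul_mem (V.pow_mem hϖV _) hπ'inv
    · rw [div_eq_mul_inv]; exact V.mul_mem (V.neg_mem (hPolV _)) hπ'inv
  have hRV : ∀ r l, R r l ∈ V := fun r l ↦ by
    simp only [R, Matrix.updateCol_apply, Matrix.one_apply]
    split_ifs
    · exact hcolV r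
    · exact V.one_mem
    · exact V.zero_mem
  let δ : Fin d → Derivation ℂ K K := fun r ↦ ∑ l, R r l • pd K l
  have hδpol : ∀ r (q : Pol d), δ r (algebraMap (Pol d) K q) =
      ∑ l, R r l * algebraMap (Pol d) K (MvPolynomial.pderiv l q) := fun r q ↦ by
    simp [δ, der_sum_apply, pd_algebraMap]
  have hδX : ∀ r l, δ r (algebraMap (Pol d) K (MvPolynomial.X l)) = R r l := fun r l ↦ by
    simp [hδpol, MvPolynomial.pderiv_X, Pi.single_apply, apply_ite (algebraMap (Pol d) K)]
  have hδπ : ∀ r, ∃ q ∈ V, δ r (algebraMap (Pol d) K π) = ϖ ^ e * q := by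
    intro r
    rw [hδpol]
    by_cases hr : r = l₀
    · refine ⟨1, V.one_mem, ?_⟩
      rw [Finset.sum_eq_single l₀]
      · simp [R, col, hr, Matrix.updateCol_apply]
        field_simp
        rfl
      · intro l _ hl
        simp [R, hr, Matrix.updateCol_apply, hl, Matrix.one_apply_ne (Ne.symm hl)]
      · simp
    · refine ⟨0, V.zero_mem, ?_⟩
      rw [mul_zero, ← Finset.add_sum_erase _ _ (Finset.mem_univ l₀),
        Finset.sum_eq_single r]
      · simp [R, col, Matrix.updateCol_apply, hr]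
        change -π' r / π' l₀ * π' l₀ + π' r = 0
        field_simp
        ring
      · intro l hl hlr
        simp [R, Matrix.updateCol_apply, Finset.ne_of_mem_erase hl, Matrix.one_apply_ne (Ne.symm hlr)]
      · intro h'
        exact absurd (Finset.mem_erase.mpr ⟨hr, Finset.mem_univ r⟩) h'
  -- bound on the values of the derivations
  have hadj : ∀ r (b : B), J * δ r (algebraMap B K b) ∈ V := by
    intro r b
    have hexp : ∀ l, J • pd K l = ∑ i, algebraMap A K (F.adjugate l i) • extD (d := d) K (v i) := by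
      intro l
      rw [der_expand A (d := d) (J • pd K l),
        der_expand A (d := d) (∑ i, algebraMap A K (F.adjugate l i) • extD (d := d) K (v i))]
      refine Finset.sum_congr rfl fun m _ ↦ ?_
      congr 1
      have h1 : (F.adjugate * F) l m = (if l = m then F.det else 0) := by
        rw [Matrix.adjugate_mul, Matrix.smul_apply, Matrix.one_apply, smul_eq_mul, mul_ite,
          mul_one, mul_zero]
      rw [Matrix.mul_apply] at h1
      simp only [Derivation.smul_apply, pd_algebraMap, smul_eq_mul, der_sum_apply]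
      simp only [IsScalarTower.algebraMap_apply (Pol d) A K (MvPolynomial.X m), extD_algebraMap,
        ← map_mul, ← map_sum]
      have h2 : ∀ i, v i (algebraMap (Pol d) A (MvPolynomial.X m)) = F i m := fun i ↦ rfl
      simp only [h2, h1]
      simp [MvPolynomial.pderiv_X, Pi.single_apply, apply_ite (algebraMap (Pol d) K),
        apply_ite (algebraMap A K), J, eq_comm]
    have : J * δ r (algebraMap B K b) = ∑ l, R r l * (J • pd K l) (algebraMap B K b) := by
      simp [δ, der_sum_apply, Finset.mul_sum, mul_left_comm]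
    rw [this]
    refine V.sum_mem fun l _ ↦ V.mul_mem (hRV r l) ?_
    rw [hexp, der_sum_apply]
    refine V.sum_mem fun i _ ↦ ?_
    obtain ⟨b', hb'⟩ := extD_mem (d := d) c₀ hc₀ hcond (v i) b
    rw [Derivation.smul_apply, hb', smul_eq_mul]
    exact V.mul_mem (hAV _) (algebraMap_mem_locRing b')
  have hquot : ∀ (D : Derivation ℂ K K) (m : K), (∀ b : B, m * D (algebraMap B K b) ∈ V) →
      ∀ x ∈ V, m * D x ∈ V := by
    rintro D m hD x ⟨a, t, ht, hx⟩
    have h1 := congrArg D hx
    rw [D.leibniz, smul_eq_mul, smul_eq_mul] at h1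
    have ht0 : algebraMap B K t ≠ 0 :=
      (map_ne_zero_iff _ (IsFractionRing.injective B K)).mpr fun h' ↦ ht (h' ▸ P.zero_mem)
    have h2 : m * D x = (algebraMap B K t)⁻¹ *
        (m * D (algebraMap B K a) - x * (m * D (algebraMap B K t))) := by
      field_simp
      linear_combination m * h1
    rw [h2]
    exact V.mul_mem (inv_mem_locRing ht) (V.sub_mem (hD a) (V.mul_mem ⟨a, t, ht, hx⟩ (hD t)))
  have hchar : CharZero (B ⧸ P) := by
    refine charZero_of_inj_zero fun k hk ↦ ?_
    by_contra hk0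
    rw [← map_natCast (Ideal.Quotient.mk P), Ideal.Quotient.eq_zero_iff_mem] at hk
    have h1 : IsUnit ((k : ℕ) : Pol d) := by
      rw [← map_natCast (algebraMap ℂ (Pol d))]
      exact (isUnit_iff_ne_zero.mpr (Nat.cast_ne_zero.mpr hk0)).map _
    exact ‹P.IsPrime›.ne_top
      (Ideal.eq_top_of_isUnit_mem _ hk (by simpa using h1.map (algebraMap (Pol d) B)))
  have hpres : ∀ r (b : B), δ r (algebraMap B K b) ∈ V := by
    intro r
    have hstep : ∀ k : ℕ, (∀ b : B, ϖ ^ k * δ r (algebraMap B K b) ∈ V) →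
        ∀ b : B, δ r (algebraMap B K b) ∈ V := by
      intro k
      induction k with
      | zero => intro hk b; simpa using hk b
      | succ k ih =>
        intro hk
        refine ih fun b ↦ ?_
        have hkV := hquot (δ r) _ hk
        -- the value at the uniformizer
        have hϖ' : ∃ q ∈ V, ϖ ^ (k + 1) * δ r ϖ = ϖ * q := by
          obtain ⟨q, hq, hq'⟩ := hδπ r
          rw [hπu, Derivation.leibniz, Derivation.leibniz_pow] at hq'
          simp only [smul_eq_mul, nsmul_eq_mul, Nat.add_sub_cancel, Nat.cast_add, Nat.cast_one] at hq'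
          have hu0 : u ≠ 0 := by
            rintro rfl
            rw [zero_mul, IsScalarTower.algebraMap_apply (Pol d) B K, map_eq_zero_iff _
              (IsFractionRing.injective B K), map_eq_zero_iff _ hinj] at hπu
            exact hπ.ne_zero hπu
          have he1 : ((e : K) + 1) ≠ 0 := Nat.cast_add_one_ne_zero e
          have he1i : ((e : K) + 1)⁻¹ ∈ V := by
            have : ((e : K) + 1)⁻¹ = algebraMap (Pol d) K (algebraMap ℂ (Pol d) ((e : ℂ) + 1)⁻¹) := by
              rw [← IsScalarTower.algebraMap_apply]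
              simp
            rw [this]
            exact hPolV _
          refine ⟨((e : K) + 1)⁻¹ * u⁻¹ * (ϖ ^ k * q - ϖ ^ (k + 1) * δ r u),
            V.mul_mem (V.mul_mem he1i hui)
              (V.sub_mem (V.mul_mem (V.pow_mem hϖV _) hq) (hkV u hu)), ?_⟩
          have hq'' : ((e : K) + 1) * u * δ r ϖ = q - ϖ * δ r u := by
            apply mul_left_cancel₀ (pow_ne_zero e hϖ0)
            linear_combination hq'
          field_simp
          linear_combination ϖ ^ (k + 1) * hq''
        obtain ⟨f, hf, hf'⟩ := exists_poly (P := Pol d) P b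
        let N : AddSubgroup K :=
          { carrier := {x | ∃ q ∈ V, ϖ ^ (k + 1) * x = ϖ * q}
            zero_mem' := ⟨0, V.zero_mem, by simp⟩
            add_mem' := fun {x y} ⟨q, hq, hx⟩ ⟨q', hq', hy⟩ ↦
              ⟨q + q', V.add_mem hq hq', by rw [mul_add, hx, hy, mul_add]⟩
            neg_mem' := fun {x} ⟨q, hq, hx⟩ ↦ ⟨-q, V.neg_mem hq, by rw [mul_neg, hx, mul_neg]⟩ }
        let δB : Derivation ℂ K K := δ r
        have h1 : δB (Polynomial.aeval (algebraMap B K b) f) -
            Polynomial.aeval (algebraMap B K b) (Polynomial.derivative f) • δB (algebraMap B K b) ∈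
            N := by
          refine der_aeval_mem (P := Pol d) δB (algebraMap B K b) N (fun c i ↦ ?_) f
          refine ⟨algebraMap B K b ^ i * (ϖ ^ k * ∑ l, R r l * algebraMap (Pol d) K
            (MvPolynomial.pderiv l c)), V.mul_mem (V.pow_mem (algebraMap_mem_locRing b) _)
              (V.mul_mem (V.pow_mem hϖV _) (V.sum_mem fun l _ ↦ V.mul_mem (hRV r l) (hPolV _))), ?_⟩
          rw [smul_eq_mul, hδpol]
          ring
        have h2 : δB (Polynomial.aeval (algebraMap B K b) f) ∈ N := by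
          rw [Polynomial.aeval_algebraMap_apply]
          by_cases hz : algebraMap B K (Polynomial.aeval b f) = 0
          · rw [hz, map_zero]; exact N.zero_mem
          obtain ⟨n, w, hw, hwi, hwz⟩ := hfac _ (algebraMap_mem_locRing _) hz
          obtain ⟨n, rfl⟩ : ∃ n', n = n' + 1 := by
            refine Nat.exists_eq_succ_of_ne_zero fun h0 ↦ ?_
            have h3 := (inMax_algebraMap (K := K) hf).mul_mem hwi
            rw [hwz, h0, pow_zero, mul_one, mul_inv_cancel₀] at h3
            · exact not_inMax_one h3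
            · rintro rfl
              exact hz (by rw [hwz, zero_mul])
          have hwn : w * ϖ ^ n ∈ V := V.mul_mem hw (V.pow_mem hϖV _)
          obtain ⟨q, hq, hq'⟩ := hϖ'
          refine ⟨w * ϖ ^ n * q + ϖ ^ (k + 1) * δ r (w * ϖ ^ n),
            V.add_mem (V.mul_mem hwn hq) (hkV _ hwn), ?_⟩
          rw [hwz, show w * ϖ ^ (n + 1) = w * ϖ ^ n * ϖ by ring, show δB = δ r from rfl,
            Derivation.leibniz, smul_eq_mul, smul_eq_mul]
          linear_combination (w * ϖ ^ n) * hq'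
        have h4 := N.sub_mem h2 h1
        rw [sub_sub_cancel, smul_eq_mul, Polynomial.aeval_algebraMap_apply] at h4
        obtain ⟨q, hq, hq'⟩ := h4
        have hfi := inv_mem_locRing (K := K) hf'
        have hf0 : algebraMap B K (Polynomial.aeval b (Polynomial.derivative f)) ≠ 0 :=
          (map_ne_zero_iff _ (IsFractionRing.injective B K)).mpr fun h' ↦ hf' (h' ▸ P.zero_mem)
        have h5 : ϖ ^ k * δ r (algebraMap B K b) =
            (algebraMap B K (Polynomial.aeval b (Polynomial.derivative f)))⁻¹ * q := by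
          field_simp
          apply mul_left_cancel₀ hϖ0
          linear_combination hq'
        rw [h5]
        exact V.mul_mem hfi hq
    refine hstep j fun b ↦ ?_
    have h1 := V.mul_mem huJi (hadj r b)
    rw [hJu] at h1
    convert h1 using 1
    field_simp
  -- the derivations are combinations of the given ones
  have hAp : ∀ x ∈ V, ∃ t ∉ p, ∃ a : A, algebraMap A K t * x = algebraMap A K a := by
    rintro x ⟨a, t, ht, hx⟩
    obtain ⟨a', ha'⟩ := hcpB a
    obtain ⟨t', ht'⟩ := hcpB t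
    refine ⟨t', fun h' ↦ ?_, a', ?_⟩
    · have h1 : algebraMap A B cp * t = algebraMap A B t' := by
        apply IsFractionRing.injective B K
        rw [map_mul, ← IsScalarTower.algebraMap_apply, ← IsScalarTower.algebraMap_apply, ht']
      have h2 : algebraMap A B cp * t ∈ P := h1 ▸ h'
      exact (‹P.IsPrime›.mem_or_mem h2).elim hcp ht
    · rw [← ht', ← ha', ← hx]
      ring
  have hC : ∀ r, ∃ C : Fin d → K, (∀ i, C i ∈ V) ∧
      C ᵥ* F.map (algebraMap A K) = R r := by
    intro r
    obtain ⟨t, ht, htA⟩ := clear_denominators p.primeCompl (δ r) (fun a ↦ by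
      obtain ⟨t, ht, a', ha'⟩ := hAp (δ r (algebraMap A K a)) (by
        rw [IsScalarTower.algebraMap_apply A B K]; exact hpres r _)
      exact ⟨t, ht, a', ha'⟩)
    obtain ⟨D, hD⟩ := mkDer_exists (algebraMap A K t • δ r) (fun a ↦ by rw [Derivation.smul_apply, smul_eq_mul]; exact htA a)
    obtain ⟨k, c, hc⟩ := hspan D
    have hdenP : algebraMap A B (h ^ k * t) ∉ P := fun h' ↦ by
      rw [map_mul, map_pow] at h'
      rcases ‹P.IsPrime›.mem_or_mem h' with h1 | h1
      · exact hhP (‹P.IsPrime›.mem_of_pow_mem k h1)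
      · exact ht h1
    refine ⟨fun i ↦ (algebraMap A K (h ^ k * t))⁻¹ * algebraMap A K (c i), fun i ↦ ?_, ?_⟩
    · refine V.mul_mem ?_ (hAV _)
      rw [IsScalarTower.algebraMap_apply A B K]
      exact inv_mem_locRing hdenP
    · funext l
      have h0 : algebraMap A K (h ^ k * t) ≠ 0 := by
        rw [IsScalarTower.algebraMap_apply A B K]
        exact (map_ne_zero_iff _ (IsFractionRing.injective B K)).mpr
          fun h' ↦ hdenP (h' ▸ P.zero_mem)
      have h1 := congrArg (algebraMap A K) (hc (algebraMap (Pol d) A (MvPolynomial.X l)))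
      rw [map_mul, hD, map_sum] at h1
      simp only [Derivation.smul_apply, smul_eq_mul, ← IsScalarTower.algebraMap_apply, hδX,
        map_mul] at h1
      simp only [vecMul, dotProduct, Matrix.map_apply, mul_assoc, ← Finset.mul_sum]
      rw [← show algebraMap A K (h ^ k) * (algebraMap A K t * R r l) =
        ∑ i, algebraMap A K (c i) * algebraMap A K (F i l) from h1]
      rw [map_mul] at h0 ⊢
      rw [← mul_assoc (algebraMap A K (h ^ k)), ← mul_assoc, inv_mul_cancel₀ h0, one_mul]
  choose C hCV hCF using hC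
  have hmat : Matrix.of C * F.map (algebraMap A K) = R :=
    Matrix.ext fun r l ↦ congrFun (hCF r) l
  have hdetR : R.det = ϖ ^ e / π' l₀ := by
    simp only [R, ← Matrix.cramer_apply, Matrix.cramer_one]
    simp [col]
  have hdetC : (Matrix.of C).det ∈ V := by
    let C' : Matrix (Fin d) (Fin d) V := Matrix.of fun r i ↦ ⟨C r i, hCV r i⟩
    have : (Matrix.of C).det = V.subtype C'.det := by
      rw [RingHom.map_det]
      rfl
    rw [this]
    exact C'.det.2
  have hkey : (Matrix.of C).det * J = ϖ ^ e / π' l₀ := by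
    rw [← hdetR, ← hmat, Matrix.det_mul]
    congr 1
    exact (RingHom.map_det _ _).trans rfl
  have hfinal : algebraMap (Pol d) K π / J = ϖ * (u * (Matrix.of C).det * π' l₀) := by
    field_simp
    rw [hπu]
    have := hkey
    field_simp at this
    linear_combination -(u * ϖ) * this
  rw [hfinal]
  exact hϖP.mul_mem (V.mul_mem (V.mul_mem hu hdetC) (hPolV _))

end Main

end Vale.Agent.P266
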