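import Vale.Agent.P266.Key
import Vale.Agent.P266.Normalization

namespace Vale.Agent.P266

open Matrix

variable {A : Type*} [CommRing A] [IsDomain A] [Algebra ℂ A] [Algebra.FiniteType ℂ A]

/-- A projective derivation module has, near any maximal ideal, an independent spanning family. -/
lemma exists_frame (hDer : Module.Projective A (Derivation ℂ A A)) (m : Ideal A) [m.IsMaximal] :
    ∃ (r : ℕ) (h : A) (v : Fin r → Derivation ℂ A A), h ∉ m ∧
      (∀ D : Derivation ℂ A A, ∃ c : Fin r → A, h • D = ∑ i, c i • v i) ∧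
      (∀ c : Fin r → A, ∑ i, c i • v i = 0 → c = 0) := by
  classical
  have : IsNoetherianRing A := Algebra.FiniteType.isNoetherianRing ℂ A
  obtain ⟨gens, hgens⟩ := (Algebra.FiniteType.out : (⊤ : Subalgebra ℂ A).FG)
  let ev : Derivation ℂ A A →ₗ[A] (gens → A) :=
    { toFun := fun D x ↦ D x
      map_add' := fun _ _ ↦ rfl
      map_smul' := fun _ _ ↦ rfl }
  have : Module.Finite A (Derivation ℂ A A) := Module.Finite.of_injective ev fun D D' hDD ↦
    Derivation.ext_of_adjoin_eq_top _ hgens fun x hx ↦ congrFun hDD ⟨x, hx⟩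
  have hex : ∃ r, ∃ (h : A) (v : Fin r → Derivation ℂ A A), h ∉ m ∧
      ∀ D : Derivation ℂ A A, ∃ c : Fin r → A, h • D = ∑ i, c i • v i := by
    obtain ⟨r, v, hv⟩ := Module.Finite.exists_fin (R := A) (M := Derivation ℂ A A)
    refine ⟨r, 1, v, fun h1 ↦ ‹m.IsMaximal›.ne_top ((Ideal.eq_top_iff_one m).mpr h1), fun D ↦ ?_⟩
    obtain ⟨c, hc⟩ :=
      (Submodule.mem_span_range_iff_exists_fun A).mp (hv ▸ Submodule.mem_top : D ∈ _)
    exact ⟨c, by rw [one_smul, hc]⟩
  obtain ⟨h, v, hh, hspan⟩ := Nat.find_spec hex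
  refine ⟨Nat.find hex, h, v, hh, hspan, ?_⟩
  obtain ⟨n, π, hπ⟩ := Module.Finite.exists_fin' A (Derivation ℂ A A)
  obtain ⟨sec, hsec⟩ := Module.projective_lifting_property π LinearMap.id hπ
  choose coef hcoef using fun k : Fin n ↦ hspan (π (Pi.single k 1))
  let φ : Derivation ℂ A A → Fin (Nat.find hex) → A := fun x i ↦ ∑ k, sec x k * coef k i
  have hφ : ∀ x, h • x = ∑ i, φ x i • v i := fun x ↦ by
    conv_lhs => rw [show x = π (sec x) from (LinearMap.congr_fun hsec x).symm]
    rw [show sec x = ∑ k, sec x k • (Pi.single k (1 : A) : Fin n → A) from pi_eq_sum_univ' (sec x),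
      map_sum, Finset.smul_sum]
    simp only [map_smul, smul_comm h, hcoef, Finset.smul_sum, smul_smul]
    rw [Finset.sum_comm]
    simp only [φ, Finset.sum_smul]
  have hentry : ∀ i j, φ (v j) i - (if i = j then h else 0) ∈ m := by
    intro i j
    by_contra hnot
    obtain ⟨r, hr⟩ : ∃ r, Nat.find hex = r + 1 := ⟨Nat.find hex - 1, by have := i.2; omega⟩
    let v' : Fin (r + 1) → Derivation ℂ A A := fun a ↦ v (Fin.cast hr.symm a)
    let i' : Fin (r + 1) := Fin.cast hr i
    refine Nat.find_min hex (show r < Nat.find hex by omega)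
      ⟨h * (φ (v j) i - if i = j then h else 0), fun a ↦ v' (i'.succAbove a),
        fun hmem ↦ ((inferInstance : m.IsPrime).mem_or_mem hmem).elim hh hnot, fun D ↦ ?_⟩
    have hmem : ∀ a, v' (i'.succAbove a) ∈ Submodule.span A (Set.range fun a ↦ v' (i'.succAbove a)) :=
      fun a ↦ Submodule.subset_span ⟨a, rfl⟩
    suffices (h * (φ (v j) i - if i = j then h else 0)) • D ∈
        Submodule.span A (Set.range fun a ↦ v' (i'.succAbove a)) by
      obtain ⟨c, hc⟩ := (Submodule.mem_span_range_iff_exists_fun A).mp this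
      exact ⟨c, hc.symm⟩
    set S := Submodule.span A (Set.range fun a ↦ v' (i'.succAbove a))
    have hne : ∀ l, l ≠ i → v l ∈ S := fun l hl ↦ by
      obtain ⟨a, ha⟩ := Fin.exists_succAbove_eq (x := Fin.cast hr l) (y := i')
        (fun hh' ↦ hl (Fin.cast_injective _ hh'))
      have := hmem a
      rw [ha] at this
      simpa [v'] using this
    have hvi : (φ (v j) i - if i = j then h else 0) • v i ∈ S := by
      have h1 : h • v j = φ (v j) i • v i + ∑ l ∈ Finset.univ.erase i, φ (v j) l • v l := by
        rw [hφ (v j)]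
        exact (Finset.add_sum_erase Finset.univ (fun l ↦ φ (v j) l • v l) (Finset.mem_univ i)).symm
      have h2 : ∑ l ∈ Finset.univ.erase i, φ (v j) l • v l ∈ S := S.sum_mem fun l hl ↦
        S.smul_mem _ (hne l (Finset.ne_of_mem_erase hl))
      by_cases hij : i = j
      · subst hij
        rw [if_pos rfl, sub_smul, h1, sub_add_cancel_left]
        exact S.neg_mem h2
      · rw [if_neg hij, sub_zero, show φ (v j) i • v i =
          h • v j - ∑ l ∈ Finset.univ.erase i, φ (v j) l • v l by rw [h1, add_sub_cancel_right]]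
        exact S.sub_mem (S.smul_mem _ (hne j (Ne.symm hij))) h2
    obtain ⟨c, hc⟩ := hspan D
    rw [mul_comm h, ← smul_smul, hc, Finset.smul_sum]
    refine S.sum_mem fun l _ ↦ ?_
    rw [smul_comm]
    refine S.smul_mem _ ?_
    by_cases hl : l = i
    · exact hl ▸ hvi
    · exact S.smul_mem _ (hne l hl)
  intro c hc
  let M : Matrix (Fin (Nat.find hex)) (Fin (Nat.find hex)) A := Matrix.of fun j i ↦ φ (v j) i
  have hdet : M.det ≠ 0 := by
    intro h0
    have : Ideal.Quotient.mk m M.det = Ideal.Quotient.mk m (h ^ Nat.find hex) := by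
      have hM : M.map (Ideal.Quotient.mk m) =
          Matrix.diagonal fun _ ↦ Ideal.Quotient.mk m h := by
        refine Matrix.ext fun j i ↦ ?_
        have := hentry i j
        rw [← Ideal.Quotient.eq] at this
        simp only [M, Matrix.map_apply, Matrix.of_apply, this]
        by_cases hij : i = j
        · simp [hij]
        · simp [hij, Matrix.diagonal_apply_ne _ (Ne.symm hij)]
      rw [RingHom.map_det, RingHom.mapMatrix_apply, hM, Matrix.det_diagonal]
      simp
    rw [h0, map_zero, eq_comm, Ideal.Quotient.eq_zero_iff_mem] at this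
    exact hh ((inferInstance : m.IsPrime).mem_of_pow_mem _ this)
  refine Matrix.eq_zero_of_vecMul_eq_zero hdet (funext fun i ↦ ?_)
  have h1 : φ (∑ j, c j • v j) i = ∑ j, c j * φ (v j) i := by
    simp only [φ, map_sum, map_smul, Finset.sum_apply, Pi.smul_apply, smul_eq_mul, Finset.sum_mul,
      Finset.mul_sum]
    rw [Finset.sum_comm]
    simp only [mul_assoc]
  rw [hc] at h1
  simp only [vecMul, dotProduct, M, Matrix.of_apply, ← h1, Pi.zero_apply]
  simp [φ]

lemma mem_map_atPrime_iff (m : Ideal A) [m.IsPrime] (I : Ideal A) (x : A) :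
    algebraMap A (Localization.AtPrime m) x ∈ I.map (algebraMap A (Localization.AtPrime m)) ↔
      ∃ t ∉ m, t * x ∈ I := by
  rw [IsLocalization.algebraMap_mem_map_algebraMap_iff m.primeCompl]
  exact ⟨fun ⟨t, ht, h⟩ ↦ ⟨t, ht, h⟩, fun ⟨t, ht, h⟩ ↦ ⟨t, ht, h⟩⟩

lemma span_add_eq_span {R : Type*} [CommRing R] [IsLocalRing R] [IsNoetherianRing R] {ι : Type*}
    (a b : ι → R) (hb : ∀ l, b l ∈ IsLocalRing.maximalIdeal R * Ideal.span (Set.range a)) :
    Ideal.span (Set.range fun l ↦ a l + b l) = Ideal.span (Set.range a) := by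
  refine le_antisymm ?_ ?_
  · rw [Ideal.span_le]
    rintro _ ⟨l, rfl⟩
    exact Ideal.add_mem _ (Ideal.subset_span ⟨l, rfl⟩) (Ideal.mul_le_right (hb l))
  · refine Submodule.le_of_le_smul_of_le_jacobson_bot (IsNoetherian.noetherian _)
      (IsLocalRing.maximalIdeal_le_jacobson ⊥) ?_
    refine Ideal.span_le.mpr ?_
    rintro _ ⟨l, rfl⟩
    have h1 : a l + b l - b l ∈ Ideal.span (Set.range fun l ↦ a l + b l) ⊔
        IsLocalRing.maximalIdeal R * Ideal.span (Set.range a) :=
      Submodule.sub_mem _ (Submodule.mem_sup_left (Ideal.subset_span ⟨l, rfl⟩))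
        (Submodule.mem_sup_right (hb l))
    rw [add_sub_cancel_right] at h1
    exact h1

lemma map_span_range {R S : Type*} [CommRing R] [CommRing S] (f : R →+* S) {ι : Type*} (a : ι → R) :
    (Ideal.span (Set.range a)).map f = Ideal.span (Set.range fun l ↦ f (a l)) := by
  rw [Ideal.map_span, ← Set.range_comp]
  rfl

lemma frame_card {s : ℕ} [Algebra (Pol s) A] [IsScalarTower ℂ (Pol s) A] [Module.Finite (Pol s) A]
    [FaithfulSMul (Pol s) A] {r : ℕ} (h : A) (hh0 : h ≠ 0) (v : Fin r → Derivation ℂ A A)
    (hspan : ∀ D : Derivation ℂ A A, ∃ c : Fin r → A, h • D = ∑ i, c i • v i)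
    (hindep : ∀ c : Fin r → A, ∑ i, c i • v i = 0 → c = 0) : r = s := by
  classical
  let g' : Fin s → A := fun l ↦ algebraMap (Pol s) A (MvPolynomial.X l)
  let L := FractionRing (Pol s)
  let K := FractionRing A
  have : CharZero K := Algebra.charZero_of_charZero ℂ K
  have : FaithfulSMul (Pol s) K := (faithfulSMul_iff_algebraMap_injective _ _).mpr <| by
    rw [IsScalarTower.algebraMap_eq (Pol s) A K]
    exact (IsFractionRing.injective A K).comp (FaithfulSMul.algebraMap_injective _ _)
  let : Algebra L K := FractionRing.liftAlgebra (Pol s) K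
  have : IsScalarTower (Pol s) L K := FractionRing.isScalarTower_liftAlgebra (Pol s) K
  have : FiniteDimensional L K := finiteDimensional_fractionRing (P := Pol s) (A := A)
  have : CharZero L := Algebra.charZero_of_charZero ℂ L
  have : Algebra.FormallyEtale L K := Algebra.FormallyEtale.of_isSeparable L K
  have : Algebra.FormallyEtale (Pol s) L :=
    Algebra.FormallyEtale.of_isLocalization (nonZeroDivisors (Pol s))
  have : Algebra.FormallyEtale (Pol s) K := Algebra.FormallyEtale.comp (Pol s) L K
  refine le_antisymm ?_ ?_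
  · have hli : LinearIndependent A fun i ↦ (fun l ↦ v i (g' l)) := by
      rw [Fintype.linearIndependent_iff]
      intro c hc i
      refine congrFun (hindep c (der_ext_on_X (d := s) (fun l ↦ ?_) K)) i
      have := congrFun hc l
      rw [der_sum_apply]
      simpa [Finset.sum_apply] using this
    simpa using hli.fintype_card_le_finrank
  · have hpd : ∀ l : Fin s, ∃ (D : Derivation ℂ A A) (t : A), t ≠ 0 ∧
        ∀ k, D (g' k) = if l = k then t else 0 := fun l ↦ by
      obtain ⟨t, ht, ht'⟩ := clear_denominators (nonZeroDivisors A) (pd K l) (fun a ↦ by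
        obtain ⟨x, z, hz, hxz⟩ := IsFractionRing.div_surjective (A := A)
          (pd K l (algebraMap A K a))
        refine ⟨z, hz, x, ?_⟩
        rw [← hxz, mul_div_cancel₀]
        exact (map_ne_zero_iff _ (IsFractionRing.injective A K)).mpr
          (nonZeroDivisors.ne_zero hz))
      obtain ⟨D, hD⟩ := mkDer_exists (algebraMap A K t • pd K l) (fun a ↦ by
        rw [Derivation.smul_apply, smul_eq_mul]; exact ht' a)
      refine ⟨D, t, nonZeroDivisors.ne_zero ht, fun k ↦ IsFractionRing.injective A K ?_⟩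
      rw [hD, Derivation.smul_apply, ← IsScalarTower.algebraMap_apply, pd_algebraMap,
        MvPolynomial.pderiv_X, smul_eq_mul]
      by_cases hlk : l = k
      · simp [hlk]
      · simp [hlk, Pi.single_eq_of_ne hlk]
    choose D t ht hD using hpd
    choose c hc using fun l ↦ hspan (D l)
    have hli : LinearIndependent A c := by
      rw [Fintype.linearIndependent_iff]
      intro a ha k
      have h1 : ∑ l, a l • (h • D l) = 0 := by
        simp only [hc, Finset.smul_sum, smul_smul]
        rw [Finset.sum_comm]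
        simp only [← Finset.sum_smul]
        refine Finset.sum_eq_zero fun i _ ↦ ?_
        have := congrFun ha i
        simp only [Finset.sum_apply, Pi.smul_apply, smul_eq_mul, Pi.zero_apply] at this
        rw [this, zero_smul]
      have h2 := congrArg (fun E : Derivation ℂ A A ↦ E (g' k)) h1
      simp only [der_sum_apply, Derivation.smul_apply, hD, smul_eq_mul, Derivation.zero_apply,
        mul_ite, mul_zero, Finset.sum_ite_eq', Finset.mem_univ, if_true] at h2
      exact (mul_eq_zero.mp h2).resolve_right (mul_ne_zero hh0 (ht k))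
    simpa using hli.fintype_card_le_finrank

lemma perturb (m : Ideal A) [m.IsMaximal] {s : ℕ} (g y : Fin s → A) (hy : ∀ l, y l ∈ m) (δ : ℕ)
    (hg : IsLocalRing.maximalIdeal (Localization.AtPrime m) ≤
      ((Ideal.span (Set.range g)).map (algebraMap A (Localization.AtPrime m))).radical) :
    ∃ N, δ < N ∧ (Ideal.span (Set.range fun l ↦ g l + y l ^ N)).map
      (algebraMap A (Localization.AtPrime m)) =
      (Ideal.span (Set.range g)).map (algebraMap A (Localization.AtPrime m)) := by
  have hnoe : IsNoetherianRing A := Algebra.FiniteType.isNoetherianRing ℂ A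
  have : IsNoetherianRing (Localization.AtPrime m) :=
    IsLocalization.isNoetherianRing m.primeCompl _ hnoe
  rw [map_span_range (algebraMap A (Localization.AtPrime m)) g] at hg ⊢
  obtain ⟨N₀, hN₀⟩ := Ideal.exists_pow_le_of_le_radical_of_fg hg (IsNoetherian.noetherian _)
  refine ⟨δ + N₀ + 1, by omega, ?_⟩
  rw [map_span_range]
  simp only [map_add, map_pow]
  refine span_add_eq_span _ _ fun l ↦ ?_
  have h1 : algebraMap A (Localization.AtPrime m) (y l) ∈
      IsLocalRing.maximalIdeal (Localization.AtPrime m) :=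
    Localization.AtPrime.map_eq_maximalIdeal (I := m) ▸ Ideal.mem_map_of_mem _ (hy l)
  rw [show δ + N₀ + 1 = 1 + (δ + N₀) by omega, pow_add, pow_one]
  exact Ideal.mul_mem_mul h1
    (hN₀ (Ideal.pow_le_pow_right (show N₀ ≤ δ + N₀ by omega) (Ideal.pow_mem_pow h1 _)))

/-- The residue obstruction at an arbitrary system of parameters. -/
theorem residue_obstruction (hDer : Module.Projective A (Derivation ℂ A A)) (m : Ideal A)
    [m.IsMaximal] (d : ℕ) (hd : ringKrullDim (Localization.AtPrime m) = d) (g : Fin d → A)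
    (hg : ((Ideal.span (Set.range g)).map (algebraMap A (Localization.AtPrime m))).radical =
      IsLocalRing.maximalIdeal (Localization.AtPrime m)) :
    ∃ (h : A) (v : Fin d → Derivation ℂ A A) (g' : Fin d → A), h ∉ m ∧
      (∀ D : Derivation ℂ A A, ∃ c : Fin d → A, h • D = ∑ i, c i • v i) ∧
      (Ideal.span (Set.range g')).map (algebraMap A (Localization.AtPrime m)) =
        (Ideal.span (Set.range g)).map (algebraMap A (Localization.AtPrime m)) ∧
      algebraMap A (Localization.AtPrime m) (Matrix.of fun i l ↦ v i (g' l)).det ∉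
        (Ideal.span (Set.range g)).map (algebraMap A (Localization.AtPrime m)) := by
  classical
  obtain ⟨s, y, hy, hinj, hfin⟩ := exists_normalization m
  obtain rfl : s = d := by
    have := (ringKrullDim_atPrime_of_normalization m y hy hinj hfin).1
    rw [hd] at this
    exact_mod_cast this.symm
  obtain ⟨δ, hδ⟩ := exists_bound_normalization m y hy hinj hfin g
  obtain ⟨N, hN, hmap⟩ := perturb m g y hy δ hg.ge
  obtain ⟨hinj', hfin'⟩ := hδ N hN
  set g' : Fin s → A := fun l ↦ g l + y l ^ N with hg'
  have hg'm : ∀ l, g' l ∈ m := fun l ↦ by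
    have h1 : algebraMap A (Localization.AtPrime m) (g' l) ∈
        (Ideal.span (Set.range g)).map (algebraMap A (Localization.AtPrime m)) :=
      hmap ▸ Ideal.mem_map_of_mem _ (Ideal.subset_span ⟨l, rfl⟩)
    have h2 := Ideal.le_radical h1
    rw [hg, ← Localization.AtPrime.map_eq_maximalIdeal, mem_map_atPrime_iff] at h2
    obtain ⟨t, ht, htx⟩ := h2
    exact ((inferInstance : m.IsPrime).mem_or_mem htx).resolve_left ht
  let : Algebra (Pol s) A := (MvPolynomial.aeval (R := ℂ) g').toRingHom.toAlgebra
  have : IsScalarTower ℂ (Pol s) A :=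
    IsScalarTower.of_algebraMap_eq fun c ↦ ((MvPolynomial.aeval (R := ℂ) g').commutes c).symm
  have : Module.Finite (Pol s) A := hfin'
  have : FaithfulSMul (Pol s) A := (faithfulSMul_iff_algebraMap_injective _ _).mpr hinj'
  have hX : ∀ l, algebraMap (Pol s) A (MvPolynomial.X l) = g' l := fun l ↦
    MvPolynomial.aeval_X g' l
  obtain ⟨r, h, v, hh, hspan, hindep⟩ := exists_frame hDer m
  obtain rfl : r = s := frame_card h (fun h0 ↦ hh (h0 ▸ m.zero_mem)) v hspan hindep
  refine ⟨h, v, g', hh, hspan, hmap, fun hmem ↦ ?_⟩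
  rw [← hmap, mem_map_atPrime_iff] at hmem
  obtain ⟨t, ht, htm⟩ := hmem
  have hval : valMatrix (d := r) v = Matrix.of fun i l ↦ v i (g' l) :=
    Matrix.ext fun i l ↦ by simp [valMatrix, hX]
  refine det_not_mem (d := r) m (fun l ↦ by rw [hX]; exact hg'm l) h hh v (fun D ↦ ?_) t ht ?_
  · obtain ⟨c, hc⟩ := hspan D
    refine ⟨1, c, fun a ↦ ?_⟩
    have := congrArg (fun E : Derivation ℂ A A ↦ E a) hc
    simpa [der_sum_apply] using this
  · simpa only [hX, hval] using htm

end Vale.Agent.P266
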