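import Vale.Agent.P266.Obstruction

namespace Vale.Agent.P266

/-- The value of a derivation at the point `m`, as a linear functional with values in the residue
field. -/
noncomputable def tangentEval {A : Type*} [CommRing A] [Algebra ℂ A] (m : Ideal A) :
    Derivation ℂ A A →ₗ[ℂ] (A →ₗ[ℂ] A ⧸ m) where
  toFun D := (Ideal.Quotient.mkₐ ℂ m).toLinearMap.comp (D : A →ₗ[ℂ] A)
  map_add' _ _ := LinearMap.ext fun _ ↦ by simp
  map_smul' _ _ := LinearMap.ext fun _ ↦ by simp [Algebra.smul_def]

variable {A : Type*} [CommRing A] [IsDomain A] [Algebra ℂ A] [Algebra.FiniteType ℂ A]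

omit [IsDomain A] [Algebra.FiniteType ℂ A] in
@[simp] lemma tangentEval_apply (m : Ideal A) (D : Derivation ℂ A A) (a : A) :
    tangentEval m D a = Ideal.Quotient.mk m (D a) := rfl

omit [IsDomain A] in
lemma tangentEval_range_le (m : Ideal A) [m.IsMaximal] {d : ℕ} (h : A) (hh : h ∉ m)
    (v : Fin d → Derivation ℂ A A)
    (hspan : ∀ D : Derivation ℂ A A, ∃ c : Fin d → A, h • D = ∑ i, c i • v i) :
    LinearMap.range (tangentEval m) ≤ Submodule.span ℂ (Set.range fun i ↦ tangentEval m (v i)) := by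
  rintro _ ⟨D, rfl⟩
  obtain ⟨c, hc⟩ := hspan D
  obtain ⟨η, hη⟩ := exists_scalar m h
  have hη0 : η ≠ 0 := by
    rintro rfl
    exact hh (by simpa using hη)
  choose γ hγ using fun i ↦ exists_scalar m (c i)
  have : tangentEval m D = η⁻¹ • ∑ i, γ i • tangentEval m (v i) := by
    rw [eq_inv_smul_iff₀ hη0]
    refine LinearMap.ext fun a ↦ ?_
    have h1 := congrArg (fun E : Derivation ℂ A A ↦ Ideal.Quotient.mk m (E a)) hc
    simp only [der_sum_apply, Derivation.smul_apply, smul_eq_mul, map_sum, map_mul,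
      Ideal.Quotient.eq.mpr hη, Ideal.Quotient.eq.mpr (hγ _)] at h1
    simp only [LinearMap.smul_apply, LinearMap.sum_apply, tangentEval_apply, Algebra.smul_def,
      IsScalarTower.algebraMap_apply ℂ A (A ⧸ m), Ideal.Quotient.algebraMap_eq]
    exact h1
  rw [this]
  exact Submodule.smul_mem _ _ (Submodule.sum_mem _ fun i _ ↦
    Submodule.smul_mem _ _ (Submodule.subset_span ⟨i, rfl⟩))

omit [IsDomain A] in
lemma algebraMap_quotient_bijective (m : Ideal A) [m.IsMaximal] :
    Function.Bijective (algebraMap ℂ (A ⧸ m)) := by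
  let := Ideal.Quotient.field m
  have : Module.Finite ℂ (A ⧸ m) := finite_of_finite_type_of_isJacobsonRing ℂ (A ⧸ m)
  exact IsAlgClosed.algebraMap_bijective_of_isIntegral

lemma finrank_span_le_of_dual {V M : Type*} [AddCommGroup V] [Module ℂ V] [Module.Finite ℂ V]
    [AddCommGroup M] [Module ℂ M] {d : ℕ} (T : Fin d → V) (x : Fin d → M) (s : Set M)
    (hs : ∀ y ∈ s, ∃ φ : Module.Dual ℂ V, ∑ i, φ (T i) • x i = y) :
    Module.finrank ℂ (Submodule.span ℂ s) ≤ Module.finrank ℂ V := by
  let Ψ : Module.Dual ℂ V →ₗ[ℂ] M := ∑ i, (Module.Dual.eval ℂ V (T i)).smulRight (x i)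
  have hW : Submodule.span ℂ s ≤ LinearMap.range Ψ := by
    rw [Submodule.span_le]
    intro y hy
    obtain ⟨φ, hφ⟩ := hs y hy
    exact ⟨φ, by simp [Ψ, hφ]⟩
  calc Module.finrank ℂ _ ≤ Module.finrank ℂ (LinearMap.range Ψ) := Submodule.finrank_mono hW
    _ ≤ Module.finrank ℂ (Module.Dual ℂ V) := Ψ.finrank_range_le
    _ = _ := Subspace.dual_finrank_eq

lemma finrank_linearPart_le (m : Ideal A) [m.IsMaximal] {d : ℕ} (h : A) (hh : h ∉ m)
    (v : Fin d → Derivation ℂ A A)
    (hspan : ∀ D : Derivation ℂ A A, ∃ c : Fin d → A, h • D = ∑ i, c i • v i)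
    (D : Derivation ℂ A A) (c : Fin d → A) (hval : ∀ a, h * D a = ∑ i, c i * v i a)
    (hcm : ∀ i, c i ∈ m) (hDm : ∀ a, D a ∈ m) :
    Module.finrank ℂ (Submodule.span ℂ ((fun z ↦ Ideal.Quotient.mk (m ^ 2) (D z)) '' (m : Set A)))
      ≤ Module.finrank ℂ (LinearMap.range (tangentEval m)) := by
  classical
  set Rg := LinearMap.range (tangentEval m) with hRg
  have hle := tangentEval_range_le m h hh v hspan
  have hspanfin : Module.Finite ℂ
      (Submodule.span ℂ (Set.range fun i ↦ tangentEval m (v i))) :=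
    Module.Finite.span_of_finite ℂ (Set.finite_range _)
  have : Module.Finite ℂ Rg := Submodule.finiteDimensional_of_le hle
  let σ : (A ⧸ m) →ₗ[ℂ] ℂ := (LinearEquiv.ofBijective (Algebra.linearMap ℂ (A ⧸ m))
    (algebraMap_quotient_bijective m)).symm.toLinearMap
  obtain ⟨η, hη⟩ := exists_scalar m h
  have hη0 : η ≠ 0 := by
    rintro rfl
    exact hh (by simpa using hη)
  let T : Fin d → Rg := fun i ↦ ⟨tangentEval m (v i), LinearMap.mem_range_self _ _⟩
  refine finrank_span_le_of_dual T (fun i ↦ η⁻¹ • Ideal.Quotient.mk (m ^ 2) (c i)) _ ?_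
  rintro _ ⟨z, -, rfl⟩
  let φ : Module.Dual ℂ Rg :=
    σ.comp ((LinearMap.applyₗ z).comp Rg.subtype)
  refine ⟨φ, ?_⟩
  have hlam : ∀ i, v i z - algebraMap ℂ A (φ (T i)) ∈ m := fun i ↦ by
    rw [← Ideal.Quotient.eq]
    exact ((LinearEquiv.ofBijective (Algebra.linearMap ℂ (A ⧸ m))
      (algebraMap_quotient_bijective m)).apply_symm_apply (Ideal.Quotient.mk m (v i z))).symm
  have key : Ideal.Quotient.mk (m ^ 2) (algebraMap ℂ A η * D z) =
      Ideal.Quotient.mk (m ^ 2) (∑ i, c i * algebraMap ℂ A (φ (T i))) := by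
    rw [Ideal.Quotient.eq]
    have : algebraMap ℂ A η * D z - ∑ i, c i * algebraMap ℂ A (φ (T i)) =
        -((h - algebraMap ℂ A η) * D z) +
          ∑ i, c i * (v i z - algebraMap ℂ A (φ (T i))) := by
      simp only [mul_sub, Finset.sum_sub_distrib, ← hval]
      ring
    rw [this, sq]
    exact Submodule.add_mem _ (Submodule.neg_mem _ (Ideal.mul_mem_mul hη (hDm z)))
      (Submodule.sum_mem _ fun i _ ↦ Ideal.mul_mem_mul (hcm i) (hlam i))
  have hsm : ∀ (r : ℂ) (x : A), r • Ideal.Quotient.mk (m ^ 2) x =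
      Ideal.Quotient.mk (m ^ 2) (algebraMap ℂ A r * x) := fun r x ↦ by
    rw [map_mul, Algebra.smul_def]
    rfl
  simp only [smul_comm _ η⁻¹, ← Finset.smul_sum]
  rw [inv_smul_eq_iff₀ hη0, hsm, key]
  simp only [hsm, ← map_sum]
  exact congrArg _ (Finset.sum_congr rfl fun i _ ↦ mul_comm _ _)

lemma isRegularLocalRing_of_linearPart (m : Ideal A) [m.IsMaximal] {d : ℕ}
    (hd : ringKrullDim (Localization.AtPrime m) = d) (h : A) (hh : h ∉ m)
    (v : Fin d → Derivation ℂ A A) (D : Derivation ℂ A A) (c : Fin d → A)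
    (hval : ∀ a, h * D a = ∑ i, c i * v i a) (hcm : ∀ i, c i ∈ m)
    (hsurj : m ≤ Ideal.span (D '' (m : Set A)) ⊔ m ^ 2) :
    IsRegularLocalRing (Localization.AtPrime m) := by
  classical
  let R := Localization.AtPrime m
  let j := algebraMap A R
  have hnoe : IsNoetherianRing A := Algebra.FiniteType.isNoetherianRing ℂ A
  have : IsNoetherianRing R := IsLocalization.isNoetherianRing m.primeCompl R hnoe
  set S := Ideal.span (Set.range fun i ↦ j (c i)) with hS
  have hmax : IsLocalRing.maximalIdeal R ≤ S ⊔ IsLocalRing.maximalIdeal R • IsLocalRing.maximalIdeal R := by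
    rw [smul_eq_mul, ← sq, ← Localization.AtPrime.map_eq_maximalIdeal (I := m), ← Ideal.map_pow]
    refine (Ideal.map_mono hsurj).trans ?_
    rw [Ideal.map_sup]
    refine sup_le_sup ?_ le_rfl
    rw [Ideal.map_span, Ideal.span_le]
    rintro _ ⟨_, ⟨z, -, rfl⟩, rfl⟩
    have hu : IsUnit (j h) := IsLocalization.map_units R (⟨h, hh⟩ : m.primeCompl)
    refine (Ideal.unit_mul_mem_iff_mem S hu).mp ?_
    rw [← map_mul, hval, map_sum]
    exact S.sum_mem fun i _ ↦ by
      rw [map_mul]
      exact S.mul_mem_right _ (Ideal.subset_span ⟨i, rfl⟩)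
  have hle : IsLocalRing.maximalIdeal R ≤ S :=
    Submodule.le_of_le_smul_of_le_jacobson_bot (IsNoetherian.noetherian _)
      (IsLocalRing.maximalIdeal_le_jacobson ⊥) hmax
  have heq : IsLocalRing.maximalIdeal R = S := by
    refine le_antisymm hle (Ideal.span_le.mpr ?_)
    rintro _ ⟨i, rfl⟩
    exact Localization.AtPrime.map_eq_maximalIdeal (I := m) ▸ Ideal.mem_map_of_mem j (hcm i)
  refine IsRegularLocalRing.of_spanFinrank_maximalIdeal_le R ?_
  rw [hd, heq]
  refine Nat.cast_le.mpr ?_
  refine (Submodule.spanFinrank_span_le_ncard_of_finite (Set.finite_range _)).trans ?_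
  rw [← Set.image_univ]
  exact (Set.ncard_image_le Set.finite_univ).trans (by simp)


/-- A derivation preserving an ideal of parameters is singular at the point, its linear part has
rank at most the rank of the tangent evaluation, and if the linear part is surjective the local
ring is regular. -/
theorem stable_parameter_ideal (hDer : Module.Projective A (Derivation ℂ A A)) (m : Ideal A)
    [m.IsMaximal] (d : ℕ) (hd : ringKrullDim (Localization.AtPrime m) = d) (g : Fin d → A)
    (hg : ((Ideal.span (Set.range g)).map (algebraMap A (Localization.AtPrime m))).radical =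
      IsLocalRing.maximalIdeal (Localization.AtPrime m))
    (D : Derivation ℂ A A)
    (hD : ∀ l, algebraMap A (Localization.AtPrime m) (D (g l)) ∈
      (Ideal.span (Set.range g)).map (algebraMap A (Localization.AtPrime m))) :
    (∀ a, D a ∈ m) ∧
      Module.finrank ℂ (Submodule.span ℂ ((fun z ↦ Ideal.Quotient.mk (m ^ 2) (D z)) '' (m : Set A)))
        ≤ Module.finrank ℂ (LinearMap.range (tangentEval m)) ∧
      (m ≤ Ideal.span (D '' (m : Set A)) ⊔ m ^ 2 →
        IsRegularLocalRing (Localization.AtPrime m)) := by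
  classical
  obtain ⟨h, v, g', hh, hspan, hmap, hdet⟩ := residue_obstruction hDer m d hd g hg
  obtain ⟨c, hc⟩ := hspan D
  set R := Localization.AtPrime m
  set j := algebraMap A R with hj
  set I := (Ideal.span (Set.range g)).map j with hI
  have hstab : ∀ x, j x ∈ I → j (D x) ∈ I := by
    intro x hx
    obtain ⟨t, ht, htx⟩ := (mem_map_atPrime_iff m _ x).mp hx
    obtain ⟨a, ha⟩ := (Submodule.mem_span_range_iff_exists_fun A).mp htx
    have h1 : j (D (t * x)) ∈ I := by
      rw [← ha]
      simp only [map_sum, smul_eq_mul, Derivation.leibniz, map_add, map_mul]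
      refine I.sum_mem fun l _ ↦ I.add_mem (I.mul_mem_left _ (hD l))
        (I.mul_mem_right _ (Ideal.mem_map_of_mem j (Ideal.subset_span ⟨l, rfl⟩)))
    rw [D.leibniz, smul_eq_mul, smul_eq_mul, map_add, map_mul, map_mul] at h1
    have hu : IsUnit (j t) := IsLocalization.map_units R (⟨t, ht⟩ : m.primeCompl)
    exact (Ideal.unit_mul_mem_iff_mem I hu).mp
      ((I.add_mem_iff_left (I.mul_mem_right _ hx)).mp h1)
  have hval : ∀ a, h * D a = ∑ i, c i * v i a := fun a ↦ by
    have := congrArg (fun E : Derivation ℂ A A ↦ E a) hc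
    simpa [der_sum_apply] using this
  have hcm : ∀ i, c i ∈ m := by
    intro i
    by_contra hci
    set F : Matrix (Fin d) (Fin d) A := Matrix.of fun i l ↦ v i (g' l) with hF
    have h1 : c i * F.det = ∑ l, h * D (g' l) * F.adjugate l i := by
      have h3 : Matrix.vecMul (Matrix.vecMul c F) F.adjugate = fun k ↦ F.det * c k := by
        rw [Matrix.vecMul_vecMul, Matrix.mul_adjugate, Matrix.vecMul_smul, Matrix.vecMul_one]
        rfl
      have h2 : Matrix.vecMul c F = fun l ↦ h * D (g' l) := funext fun l ↦ by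
        rw [hval]
        rfl
      have h4 := congrFun h3 i
      rw [h2] at h4
      simp only [Matrix.vecMul, dotProduct] at h4
      rw [h4, mul_comm]
    apply hdet
    have h5 : j (c i * F.det) ∈ I := by
      rw [h1, map_sum]
      refine I.sum_mem fun l _ ↦ ?_
      rw [map_mul, map_mul]
      exact I.mul_mem_right _ (I.mul_mem_left _ (hstab _
        (hmap ▸ Ideal.mem_map_of_mem j (Ideal.subset_span ⟨l, rfl⟩))))
    rw [map_mul] at h5
    exact (Ideal.unit_mul_mem_iff_mem I
      (IsLocalization.map_units R (⟨c i, hci⟩ : m.primeCompl))).mp h5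
  have hDm : ∀ a, D a ∈ m := fun a ↦ by
    have : h * D a ∈ m := hval a ▸ m.sum_mem fun i _ ↦ m.mul_mem_right _ (hcm i)
    exact ((inferInstance : m.IsPrime).mem_or_mem this).resolve_left hh
  exact ⟨hDm, finrank_linearPart_le m h hh v hspan D c hval hcm hDm,
    isRegularLocalRing_of_linearPart m hd h hh v D c hval hcm⟩

/-- No system of parameters contains the power `m ^ (d - ρ)`, where `ρ` is the rank of the tangent
evaluation at the point. -/
theorem not_pow_le_parameters (hDer : Module.Projective A (Derivation ℂ A A)) (m : Ideal A)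
    [m.IsMaximal] (d : ℕ) (hd : ringKrullDim (Localization.AtPrime m) = d) (g : Fin d → A)
    (hg : ((Ideal.span (Set.range g)).map (algebraMap A (Localization.AtPrime m))).radical =
      IsLocalRing.maximalIdeal (Localization.AtPrime m)) :
    ¬ (IsLocalRing.maximalIdeal (Localization.AtPrime m)) ^
        (d - Module.finrank ℂ (LinearMap.range (tangentEval m))) ≤
      (Ideal.span (Set.range g)).map (algebraMap A (Localization.AtPrime m)) := by
  classical
  intro hpow
  obtain ⟨h, v, g', hh, hspan, -, hdet⟩ := residue_obstruction hDer m d hd g hg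
  set F : Matrix (Fin d) (Fin d) A := Matrix.of fun i l ↦ v i (g' l)
  set Rg := LinearMap.range (tangentEval m)
  have hle := tangentEval_range_le m h hh v hspan
  have : Module.Finite ℂ (Submodule.span ℂ (Set.range fun i ↦ tangentEval m (v i))) :=
    Module.Finite.span_of_finite ℂ (Set.finite_range _)
  have : Module.Finite ℂ Rg := Submodule.finiteDimensional_of_le hle
  let Φ : (Fin d → ℂ) →ₗ[ℂ] Rg := Fintype.linearCombination ℂ
    fun i ↦ (⟨tangentEval m (v i), LinearMap.mem_range_self _ _⟩ : Rg)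
  set k := Module.finrank ℂ (LinearMap.ker Φ)
  have hk : d - Module.finrank ℂ Rg ≤ k := by
    have h1 := @LinearMap.finrank_range_add_finrank_ker ℂ (Fin d → ℂ) _ _ _ Rg _ _ _ Φ
    have h2 := Submodule.finrank_le (LinearMap.range Φ)
    rw [Module.finrank_pi, Fintype.card_fin] at h1
    omega
  obtain ⟨C, hC⟩ := Submodule.exists_isCompl (LinearMap.ker Φ)
  let b0 := ((Module.finBasis ℂ (LinearMap.ker Φ)).prod (Module.finBasis ℂ C)).map
    (Submodule.prodEquivOfIsCompl _ _ hC)
  have hcard : Fintype.card (Fin k ⊕ Fin (Module.finrank ℂ C)) = d := by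
    rw [← Module.finrank_eq_card_basis b0, Module.finrank_pi, Fintype.card_fin]
  let e := Fintype.equivFinOfCardEq hcard
  let b := b0.reindex e
  let P : Matrix (Fin d) (Fin d) ℂ := Matrix.of fun r i ↦ b r i
  have hP : IsUnit P.det := by
    have h1 := (Pi.basisFun ℂ (Fin d)).is_basis_iff_det.mp ⟨b.linearIndependent, b.span_eq⟩
    rw [Module.Basis.det_apply] at h1
    have h2 : (Pi.basisFun ℂ (Fin d)).toMatrix b = P.transpose := by
      ext i r
      simp [Module.Basis.toMatrix_apply, P]
    rwa [h2, Matrix.det_transpose] at h1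
  set G : Matrix (Fin d) (Fin d) A := P.map (algebraMap ℂ A) * F
  have hrow : ∀ x : Fin k, ∀ l, G (e (Sum.inl x)) l ∈ m := by
    intro x l
    have hker : b (e (Sum.inl x)) ∈ LinearMap.ker Φ := by
      simp [b, b0]
    have h1 := congrArg (fun T : Rg ↦ (T : A →ₗ[ℂ] A ⧸ m) (g' l)) (LinearMap.mem_ker.mp hker)
    simp only [Φ, Fintype.linearCombination_apply, Submodule.coe_sum, SetLike.val_smul,
      ZeroMemClass.coe_zero, LinearMap.sum_apply, LinearMap.smul_apply, LinearMap.zero_apply,
      tangentEval_apply] at h1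
    rw [← Ideal.Quotient.eq_zero_iff_mem]
    simp only [G, P, F, Matrix.mul_apply, Matrix.map_apply, Matrix.of_apply, map_sum, map_mul]
    simpa [Algebra.smul_def] using h1
  set S := Finset.univ.image fun x : Fin k ↦ e (Sum.inl x) with hS
  have hScard : S.card = k := by
    rw [hS, Finset.card_image_of_injective _ (fun x y hxy ↦ Sum.inl_injective (e.injective hxy)),
      Finset.card_univ, Fintype.card_fin]
  have hG : G.det ∈ m ^ k := by
    rw [← Matrix.det_transpose, Matrix.det_apply]
    refine Submodule.sum_mem _ fun σ _ ↦ ?_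
    rw [Units.smul_def, zsmul_eq_mul]
    refine Ideal.mul_mem_left _ _ ?_
    rw [← Finset.prod_mul_prod_compl S]
    refine Ideal.mul_mem_right _ _ ?_
    have h1 : (∏ i ∈ S, G.transpose (σ i) i) ∈ ∏ _i ∈ S, m := by
      refine Ideal.prod_mem_prod fun i hi ↦ ?_
      obtain ⟨x, -, rfl⟩ := Finset.mem_image.mp hi
      exact hrow x _
    rwa [Finset.prod_const, hScard] at h1
  have hF : F.det ∈ m ^ k := by
    have h1 : G.det = algebraMap ℂ A P.det * F.det := by
      rw [Matrix.det_mul]
      congr 1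
      exact (RingHom.map_det (algebraMap ℂ A) P).symm
    rw [h1] at hG
    exact (Ideal.unit_mul_mem_iff_mem _ (hP.map (algebraMap ℂ A))).mp hG
  apply hdet
  apply hpow
  rw [← Localization.AtPrime.map_eq_maximalIdeal, ← Ideal.map_pow]
  exact Ideal.mem_map_of_mem _ (Ideal.pow_le_pow_right hk hF)

end Vale.Agent.P266
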